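import Vale.Agent.P280.H641.AC
import Vale.Agent.P280.H63X.D02
import Vale.Agent.P280.H989.AC

/-! P280, T7, helper226: the component of an interior weight under `H63X.Hyp`. -/

open DirectSum Vale.Agent.P280.T Vale.Agent.P280.H127

namespace Vale.Agent.P280.H226

open Vale.Agent.P280.N Vale.Agent.P280.H490 Vale.Agent.P280.N.H989
open Vale.Agent.P280.H641 (wt_neg reflect_wt)

variable {r : ℕ} {R : Type} [CommRing R] [IsDomain R] [Algebra ℂ R]
  {𝒜 : ℕ × (Fin r → ℤ) → Submodule ℂ R} [GradedAlgebra 𝒜]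

/-- A weight which is not on the boundary. -/
def Itr (𝒜 : ℕ × (Fin r → ℤ) → Submodule ℂ R) (lam : Fin r → ℤ) : Prop :=
  ∀ l : (Fin r → ℤ) →+ ℤ, 0 < l lam → ∃ ω, Wt 𝒜 ω ∧ l lam < l ω

/-- The vertices pairing with an interior weight, for given root data. -/
theorem exists_KS' (H : H63X.Hyp 𝒜) {N : ℤ} {b : (Fin r → ℤ) → ((Fin r → ℤ) →+ ℤ)}
    {E F : (Fin r → ℤ) → VF R} (hN : 0 < N)
    (hr : ∀ χ, Vx 𝒜 χ → Root 𝒜 N χ (b χ) (E χ) (F χ)) {lam : Fin r → ℤ} (hw : Wt 𝒜 lam)
    (hint : Itr 𝒜 lam) : ∃ (n : ℕ) (χ : Fin n → Fin r → ℤ), 1 ≤ n ∧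
      KS (H63X.VV H) {ω | Wt 𝒜 ω} b N lam χ ∧ (n = 1 → Vx 𝒜 ((2 : ℤ) • lam)) := by
  have hRS := H63X.exists_RS H hN hr
  have hlV : lam ∉ H63X.VV H := by
    intro h
    obtain ⟨-, l, hl0, hl⟩ := (H63X.mem_VV H).1 h
    obtain ⟨ω, hω, hω1⟩ := hint l hl0
    by_cases hc : ω = lam
    · exact absurd hω1 (by rw [hc]; exact lt_irrefl _)
    · exact absurd (hl ω hω hc) (not_lt.2 hω1.le)
  obtain ⟨n, χ, c⟩ := exists_KS hRS (W := {ω | Wt 𝒜 ω}) hw hlV hint
  have h0 : lam ≠ 0 := H63X.c03_wt_ne_zero H hw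
  refine ⟨n, χ, c.one_le h0, c, ?_⟩
  rintro rfl
  have hs := c.sum_eq
  rw [Fin.sum_univ_one] at hs
  have h4 : χ 0 = (2 : ℤ) • lam := by
    rw [two_zsmul, ← sub_eq_iff_eq_add]; exact hs
  rw [← h4]
  exact (H63X.mem_VV H).1 (c.mem 0)

/-- The component of an interior weight: `AC`, or the double is a vertex. -/
theorem exists_AC' (H : H63X.Hyp 𝒜) {N : ℤ} {b : (Fin r → ℤ) → ((Fin r → ℤ) →+ ℤ)}
    {E F : (Fin r → ℤ) → VF R} (hN : 0 < N)
    (hr : ∀ χ, Vx 𝒜 χ → Root 𝒜 N χ (b χ) (E χ) (F χ)) {lam : Fin r → ℤ} (hw : Wt 𝒜 lam)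
    (hint : Itr 𝒜 lam) :
    Vx 𝒜 ((2 : ℤ) • lam) ∨ ∃ (n : ℕ) (f : Fin (n + 1) → Fin r → ℤ),
      AC 𝒜 N n f (fun i j => b (f i - f j)) (fun i j => E (f i - f j)) (fun i j => F (f i - f j)) ∧
        f (Fin.last n) = -lam := by
  have hRS := H63X.exists_RS H hN hr
  obtain ⟨n, χ, h1, c, hn1⟩ := exists_KS' H hN hr hw hint
  by_cases hn0 : n = 1
  · exact Or.inl (hn1 hn0)
  right
  have h0 : lam ≠ 0 := H63X.c03_wt_ne_zero H hw
  have hvx : ∀ j, Vx 𝒜 (χ j) := fun j => (H63X.mem_VV H).1 (c.mem j)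
  have hn2 : 2 ≤ n := by omega
  -- the letters
  obtain ⟨f, hf1, hf2⟩ : ∃ f : Fin (n + 1) → Fin r → ℤ, (∀ j : Fin n, f j.castSucc = χ j - lam) ∧
      f (Fin.last n) = -lam :=
    ⟨Fin.snoc (fun j => χ j - lam) (-lam), fun j => by simp [Fin.snoc_castSucc], by simp⟩
  obtain ⟨g, hg1, hg2⟩ : ∃ g : Fin (n + 1) → ((Fin r → ℤ) →+ ℤ),
      (∀ j : Fin n, g j.castSucc = b (χ j)) ∧ g (Fin.last n) = 0 :=
    ⟨Fin.snoc (fun j => b (χ j)) 0, fun j => by simp [Fin.snoc_castSucc], by simp⟩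
  have hd : ∀ i j : Fin n, f i.castSucc - f j.castSucc = χ i - χ j := fun i j => by
    rw [hf1, hf1]; abel
  have hdl : ∀ i : Fin n, f i.castSucc - f (Fin.last n) = χ i := fun i => by
    rw [hf1, hf2]; abel
  have hld : ∀ i : Fin n, f (Fin.last n) - f i.castSucc = -χ i := fun i => by
    rw [hf1, hf2]; abel
  have hvxf : ∀ i j, i ≠ j → Vx 𝒜 (f i - f j) := by
    intro i j hij
    induction i using Fin.lastCases with
    | last =>
      induction j using Fin.lastCases with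
      | last => exact absurd rfl hij
      | cast j => rw [hld]; exact H63X.c03_vx_neg H (hvx j)
    | cast i =>
      induction j using Fin.lastCases with
      | last => rw [hdl]; exact hvx i
      | cast j =>
        rw [hd]
        exact (H63X.mem_VV H).1 (c.diff_mem (fun h => hij (by rw [h])))
  have hval : ∀ i j, i ≠ j → ∀ μ, Wt 𝒜 μ → b (f i - f j) μ = g i μ - g j μ := by
    intro i j hij μ hμ
    induction i using Fin.lastCases with
    | last =>
      induction j using Fin.lastCases with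
      | last => exact absurd rfl hij
      | cast j =>
        rw [hld, hg2, hg1, hRS.neg_b (c.mem j) hμ, AddMonoidHom.zero_apply, zero_sub]
    | cast i =>
      induction j using Fin.lastCases with
      | last => rw [hdl, hg1, hg2, AddMonoidHom.zero_apply, sub_zero]
      | cast j =>
        rw [hd, c.diff_b (fun h => hij (by rw [h])) hμ, hg1, hg1]
  have hlast : Wt 𝒜 (f (Fin.last n)) := by rw [hf2]; exact wt_neg H hw
  have hwt : ∀ i, Wt 𝒜 (f i) := by
    intro i
    induction i using Fin.lastCases with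
    | last => exact hlast
    | cast i =>
      rw [hf1]
      have h2 := reflect_wt H hN (hvx i) (hr _ (hvx i)) (wt_neg H hw) (by rw [map_neg, c.bl])
      rwa [neg_add_eq_sub] at h2
  have hgf : ∀ i k, g i (f k) = (if k = i then N else 0) - (if k = Fin.last n then N else 0) := by
    intro i k
    induction i using Fin.lastCases with
    | last => rw [hg2, AddMonoidHom.zero_apply, sub_self]
    | cast i =>
      rw [hg1]
      induction k using Fin.lastCases with
      | last =>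
        rw [hf2, map_neg, c.bl, if_neg (Fin.castSucc_lt_last i).ne', if_pos rfl, zero_sub]
      | cast k =>
        rw [hf1, c.be, if_neg (Fin.castSucc_lt_last k).ne, sub_zero]
        simp only [Fin.castSucc_inj]
  refine ⟨n, f,
    { N0 := hN
      n2 := hn2
      sum := ?_
      wt := hwt
      wtn := fun i => wt_neg H (hwt i)
      vx := hvxf
      root := fun i j hij => hr _ (hvxf i j hij)
      be := fun i j k hij => by
        rw [hval i j hij _ (hwt k), hgf, hgf]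
        ring
      anti := fun i j hij μ hμ => by
        rw [hval i j hij μ hμ, hval j i hij.symm μ hμ]
        ring
      add := fun i j k h1 h2 h3 μ hμ => by
        rw [hval i j h1 μ hμ, hval j k h2 μ hμ, hval i k h3 μ hμ]
        ring
      S := fun μ hμ => ?_ }, hf2⟩
  · rw [Fin.sum_univ_castSucc, hf2]
    simp only [hf1]
    rw [c.sum_eq, add_neg_cancel]
  · rcases c.class_W hn2 hμ with h2 | ⟨j, h2 | h2⟩ | ⟨i, j, hij, h2⟩ | ⟨j, h2 | h2⟩ | h2 | h2 |
      ⟨hn, i, j, hij, h2 | h2⟩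
    · refine Or.inl fun i j hij => ?_
      have h3 : ∀ i, g i μ = 0 := by
        intro i
        induction i using Fin.lastCases with
        | last => rw [hg2, AddMonoidHom.zero_apply]
        | cast i => rw [hg1, h2]
      rw [hval i j hij μ hμ, h3, h3, sub_zero]
    · exact Or.inr (Or.inl ⟨_, _, (Fin.castSucc_lt_last j).ne, by rw [hdl, h2]⟩)
    · exact Or.inr (Or.inl ⟨_, _, (Fin.castSucc_lt_last j).ne', by rw [hld, h2]⟩)
    · exact Or.inr (Or.inl ⟨i.castSucc, j.castSucc, (Fin.castSucc_injective n).ne hij,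
        by rw [hd, h2]⟩)
    · exact Or.inr (Or.inr (Or.inl ⟨j.castSucc, Or.inl (by rw [hf1, h2])⟩))
    · exact Or.inr (Or.inr (Or.inl ⟨j.castSucc, Or.inr (by rw [hf1, h2])⟩))
    · exact Or.inr (Or.inr (Or.inl ⟨Fin.last n, Or.inr (by rw [hf2, h2, neg_neg])⟩))
    · exact Or.inr (Or.inr (Or.inl ⟨Fin.last n, Or.inl (by rw [hf2, h2])⟩))
    · exact Or.inr (Or.inr (Or.inr ⟨hn, i.castSucc, j.castSucc,
        (Fin.castSucc_injective n).ne hij, by rw [hf1, hf1, h2]⟩))
    · have hs : ∑ i, f i = 0 := by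
        rw [Fin.sum_univ_castSucc, hf2]
        simp only [hf1]
        rw [c.sum_eq, add_neg_cancel]
      have h3 : μ = -(f i.castSucc + f j.castSucc) := by rw [hf1, hf1, h2]
      have h4 : ∀ (hn : n = 3), ∃ k l : Fin (n + 1), k ≠ l ∧
          -(f i.castSucc + f j.castSucc) = f k + f l := by
        rintro rfl
        exact AC.four hs _ _ ((Fin.castSucc_injective 3).ne hij)
      obtain ⟨k, l, hkl, h5⟩ := h4 hn
      exact Or.inr (Or.inr (Or.inr ⟨hn, k, l, hkl, h3.trans h5⟩))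


end Vale.Agent.P280.H226
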