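import Vale.Agent.P280.H226.FaceA

/-! P280, T7, helper226: the face of a boundary weight under `H63X.Hyp`. -/

open DirectSum Vale.Agent.P280.T Vale.Agent.P280.H127

namespace Vale.Agent.P280.H226

open Vale.Agent.P280.N Vale.Agent.P280.H490

variable {r : ℕ} {R : Type} [CommRing R] [IsDomain R] [Algebra ℂ R]
  {𝒜 : ℕ × (Fin r → ℤ) → Submodule ℂ R} [GradedAlgebra 𝒜]

/-- The face with centre `lam`: its weights are `lam` and the vertices `lam ± e j`; `m = 1` is an
edge. -/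
structure Face1 (𝒜 : ℕ × (Fin r → ℤ) → Submodule ℂ R) (N : ℤ) (lam : Fin r → ℤ) (m : ℕ)
    (e : Fin m → Fin r → ℤ) (L0 : (Fin r → ℤ) →+ ℤ) (β : Fin m → Bool → ((Fin r → ℤ) →+ ℤ))
    (E F : Fin m → Bool → VF R) : Prop where
  N0 : 0 < N
  m1 : 1 ≤ m
  wt : Wt 𝒜 lam
  pos : 0 < L0 lam
  max : ∀ ω, Wt 𝒜 ω → L0 ω ≤ L0 lam
  top : ∀ ω, Wt 𝒜 ω → L0 ω = L0 lam → ω = lam ∨ ∃ j s, ω = vx lam e j s
  lze : ∀ j, L0 (e j) = 0
  vt : ∀ j s, Vx 𝒜 (vx lam e j s)
  root : ∀ j s, Root 𝒜 N (vx lam e j s) (β j s) (E j s) (F j s)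
  bl : ∀ j s, β j s lam = N
  be : ∀ j s i, β j s (e i) = if i = j then sg s * N else 0
  S : ∀ μ, Wt 𝒜 μ → L0 μ = 0 → (∃ j s, μ = sg s • e j) ∨
    ∃ i j s s', i ≠ j ∧ μ = sg s • e i + sg s' • e j

omit [GradedAlgebra 𝒜] in
theorem Face1.toFace {N : ℤ} {lam : Fin r → ℤ} {m : ℕ} {e : Fin m → Fin r → ℤ}
    {L0 : (Fin r → ℤ) →+ ℤ} {β : Fin m → Bool → ((Fin r → ℤ) →+ ℤ)} {E F : Fin m → Bool → VF R}
    (h : Face1 𝒜 N lam m e L0 β E F) (hm : 2 ≤ m) : Face 𝒜 N lam m e L0 β E F :=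
  ⟨h.N0, hm, h.wt, h.pos, h.max, h.top, h.lze, h.root, h.bl, h.be, h.S⟩

omit [GradedAlgebra 𝒜] in
theorem Face1.of_face {N : ℤ} {lam : Fin r → ℤ} {m : ℕ} {e : Fin m → Fin r → ℤ}
    {L0 : (Fin r → ℤ) →+ ℤ} {β : Fin m → Bool → ((Fin r → ℤ) →+ ℤ)} {E F : Fin m → Bool → VF R}
    (h : Face 𝒜 N lam m e L0 β E F) (hv : ∀ j s, Vx 𝒜 (vx lam e j s)) :
    Face1 𝒜 N lam m e L0 β E F :=
  ⟨h.N0, by have := h.m2; omega, h.wt, h.pos, h.max, h.top, h.lze, hv, h.root, h.bl, h.be, h.S⟩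

/-- D04. The roots `χ_t - χ_u` of the face. -/
theorem face_roots (H : H63X.Hyp 𝒜) {lam : Fin r → ℤ}
    (l : (Fin r → ℤ) →+ ℤ) (hl : 0 < l lam) (hmax : ∀ ω, Wt 𝒜 ω → l ω ≤ l lam)
    {m : ℕ} {e : Fin m → Fin r → ℤ} {N : ℤ} {β : Fin m → Bool → ((Fin r → ℤ) →+ ℤ)}
    {E F : Fin m → Bool → VF R} (hN : 0 < N) (hlz : ∀ j, l (e j) = 0)
    (hV : ∀ j s, Vx 𝒜 (vx lam e j s))
    (hr : ∀ j s, Root 𝒜 N (vx lam e j s) (β j s) (E j s) (F j s)) (hbl : ∀ j s, β j s lam = N)
    (hbe : ∀ j s i, β j s (e i) = if i = j then sg s * N else 0) (i j : Fin m) (hij : i ≠ j)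
    (s s' : Bool) (μ : Fin r → ℤ) (hμ : Wt 𝒜 μ) (hne : μ ≠ sg s • e i - sg s' • e j)
    (hne' : μ ≠ -(sg s • e i - sg s' • e j)) : |β i s μ - β j s' μ| ≤ N := by
  have hdiff : vx lam e i s - vx lam e j s' = sg s • e i - sg s' • e j := by
    rw [vx, vx]
    abel
  have hsq : ∀ t : Bool, sg t * sg t = 1 := fun t => by cases t <;> simp [sg]
  -- values of the two functionals at the two vertices
  have h12 : β i s (vx lam e j s') = N := by
    rw [vx, map_add, map_zsmul, hbl, hbe, if_neg (Ne.symm hij), smul_zero, add_zero]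
  have h21 : β j s' (vx lam e i s) = N := by
    rw [vx, map_add, map_zsmul, hbl, hbe, if_neg hij, smul_zero, add_zero]
  have hvl : ∀ k t, l (vx lam e k t) = l lam := fun k t => by
    rw [vx, map_add, map_zsmul, hlz, smul_zero, add_zero]
  -- the difference is a vertex
  have hvx : Vx 𝒜 (sg s • e i - sg s' • e j) := by
    have h1 := H63X.reflect_vertex H hN (hV j s') (hr j s') (hV i s) (k := 1) (by rw [h21, one_mul])
    rwa [one_smul, hdiff] at h1
  obtain ⟨α₁, hα₁⟩ := (hr i s).br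
  obtain ⟨α₂, hα₂⟩ := (hr j s').br
  -- zero brackets
  have hE : ⁅E i s, E j s'⁆ = 0 := by
    by_contra h0
    have h1 := H63X.hull_field H l hl.le hmax ((hr i s).globE.lie (hr j s').globE)
      ((hr i s).hvE.lie (hr j s').hvE) h0
    rw [map_add, hvl, hvl] at h1
    omega
  have hF : ⁅F j s', F i s⁆ = 0 := by
    by_contra h0
    have h1 := H63X.hull_field H (-l) hl.le (fun ω hω => by
      have h2 := H63X.neg_max H l hl hmax ω hω
      rw [AddMonoidHom.neg_apply]
      omega) ((hr j s').globF.lie (hr i s).globF) ((hr j s').hvF.lie (hr i s).hvF) h0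
    rw [AddMonoidHom.neg_apply, map_add, map_neg, map_neg, hvl, hvl] at h1
    omega
  have hHF : ⁅⁅E i s, F i s⁆, F j s'⁆ = -((N : ℂ) • F j s') := by
    rw [H448.diag_lie hα₁ (hr j s').hvF (hr j s').globF, map_neg, h12, Int.cast_neg]
    exact neg_smul (N : ℂ) (F j s')
  have hHE : ⁅⁅E j s', F j s'⁆, E i s⁆ = (N : ℂ) • E i s := by
    rw [H448.diag_lie hα₂ (hr i s).hvE (hr i s).globE, h21]
  have hbb := H448.brk_brk rfl rfl hE hF hHF hHE
  have hN0 : (N : ℂ) ≠ 0 := by exact_mod_cast hN.ne'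
  have hroot : Root0 𝒜 N (sg s • e i - sg s' • e j) (β i s - β j s') ⁅F j s', E i s⁆
      ((N : ℂ)⁻¹ • ⁅F i s, E j s'⁆) :=
    { globE := (hr j s').globF.lie (hr i s).globE
      globF := ((hr i s).globF.lie (hr j s').globE).smulC _
      hvE := ((hr j s').hvF.lie (hr i s).hvE).cast (by rw [← hdiff]; abel)
      hvF := (((hr i s).hvF.lie (hr j s').hvE).smulC _).cast (by rw [← hdiff]; abel)
      two := by
        rw [AddMonoidHom.sub_apply, map_sub, map_sub, map_zsmul, map_zsmul, map_zsmul, map_zsmul,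
          hbe, hbe, hbe, hbe, if_pos rfl, if_neg (Ne.symm hij), if_neg hij, if_pos rfl]
        simp only [smul_eq_mul]
        linear_combination N * hsq s + N * hsq s'
      br := by
        refine ⟨α₁ - α₂, fun d m h hh => ?_⟩
        rw [vlie_smul, hbb, Derivation.smul_apply, Derivation.sub_apply, Derivation.smul_apply,
          Derivation.smul_apply, hα₁ d m h hh, hα₂ d m h hh, ← smul_sub, smul_smul,
          inv_mul_cancel₀ hN0, one_smul, AddMonoidHom.sub_apply, ← neg_smul, ← neg_smul,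
          ← neg_smul, ← sub_smul]
        congr 1
        push_cast
        ring }
  have h1 := H63X.root_bd H hN hvx hroot hμ hne hne'
  rwa [AddMonoidHom.sub_apply] at h1

/-- A boundary weight is a vertex or the centre of a face. -/
theorem exists_face' (H : H63X.Hyp 𝒜) {N : ℤ} {b : (Fin r → ℤ) → ((Fin r → ℤ) →+ ℤ)}
    {E F : (Fin r → ℤ) → VF R} (hN : 0 < N)
    (hroot : ∀ χ, Vx 𝒜 χ → Root 𝒜 N χ (b χ) (E χ) (F χ)) {lam : Fin r → ℤ} (hw : Wt 𝒜 lam)
    (l : (Fin r → ℤ) →+ ℤ) (hl : 0 < l lam) (hmax : ∀ ω, Wt 𝒜 ω → l ω ≤ l lam) :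
    Vx 𝒜 lam ∨ ∃ (m : ℕ) (e : Fin m → Fin r → ℤ) (L0 : (Fin r → ℤ) →+ ℤ),
      Face1 𝒜 N lam m e L0 (fun j s => b (vx lam e j s)) (fun j s => E (vx lam e j s))
        (fun j s => F (vx lam e j s)) := by
  classical
  by_cases hnv : Vx 𝒜 lam
  · exact Or.inl hnv
  right
  obtain ⟨l', hl', hmax', hRI⟩ := H63X.min_face H hw l hl hmax
  obtain ⟨m, e, hm, htop, hV, hlz, hbl, hbe⟩ :=
    face_structure H hN hroot hw l' hl' hmax' hRI hnv
  have hr : ∀ j s, Root 𝒜 N (vx lam e j s) (b (vx lam e j s)) (E (vx lam e j s))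
      (F (vx lam e j s)) := fun j s => hroot _ (hV j s)
  obtain ⟨g, hge, hg⟩ := H448.exists_generic_face (H63X.C07.wt_finite H) e N (fun i => b (vx lam e i true))
    (fun i j => by rw [hbe, sg, if_pos rfl, one_mul])
  obtain ⟨K, hK0, hK⟩ := H63X.D02.exists_bd H g
  have hL : ∀ μ, ((2 * K + 1) • l' + g) μ = (2 * K + 1) * l' μ + g μ := fun μ => by
    rw [AddMonoidHom.add_apply, AddMonoidHom.smul_apply, smul_eq_mul]
  have hvl : ∀ j s, l' (vx lam e j s) = l' lam := fun j s => by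
    rw [vx, map_add, map_zsmul, hlz, smul_zero, add_zero]
  have hvg : ∀ j s, g (vx lam e j s) = g lam := fun j s => by
    rw [vx, map_add, map_zsmul, hge, smul_zero, add_zero]
  have hlam := abs_le.1 (hK lam hw)
  have htop' : ∀ ω, Wt 𝒜 ω → l' ω = l' lam → g ω = g lam := fun ω hω h => by
    rcases htop ω hω h with rfl | ⟨j, s, rfl⟩
    · rfl
    · exact hvg j s
  have hlt : ∀ ω, Wt 𝒜 ω → l' ω < l' lam →
      (2 * K + 1) * l' ω + g ω < (2 * K + 1) * l' lam + g lam := fun ω hω h => by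
    have h1 := abs_le.1 (hK ω hω)
    nlinarith
  refine ⟨m, e, (2 * K + 1) • l' + g,
    { N0 := hN
      m1 := hm
      wt := hw
      pos := ?_
      max := fun ω hω => ?_
      top := fun ω hω h => ?_
      lze := fun j => ?_
      vt := hV
      root := hr
      bl := hbl
      be := hbe
      S := fun μ hμ h => ?_ }⟩
  · rw [hL]
    nlinarith
  · rw [hL, hL]
    rcases (hmax' ω hω).lt_or_eq with h | h
    · exact (hlt ω hω h).le
    · rw [h, htop' ω hω h]
  · rw [hL, hL] at h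
    rcases (hmax' ω hω).lt_or_eq with h' | h'
    · exact absurd h (hlt ω hω h').ne
    · exact htop ω hω h'
  · rw [hL, hlz, hge, mul_zero, add_zero]
  · rw [hL] at h
    have h1 := abs_le.1 (hK μ hμ)
    have h2 : l' μ = 0 := by
      rcases lt_trichotomy (l' μ) 0 with h3 | h3 | h3
      · nlinarith
      · exact h3
      · nlinarith
    have h3 : g μ = 0 := by
      rw [h2, mul_zero, zero_add] at h
      exact h
    have hnv : ∀ j s, μ ≠ vx lam e j s ∧ μ ≠ -vx lam e j s := fun j s => by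
      constructor
      · rintro rfl
        rw [hvl] at h2
        exact hl'.ne' h2
      · rintro rfl
        rw [map_neg, hvl] at h2
        omega
    refine H448.form_of_coords hN (fun i => b (vx lam e i true)) (H63X.c03_wt_ne_zero H hμ) (hg μ hμ h3)
      (fun i => (hr i true).int μ hμ)
      (fun i => (hr i true).bd μ hμ (hnv i true).1 (hnv i true).2) ?_
    intro i j hij s s' hs hs'
    by_contra hcon
    push Not at hcon
    have hmu := hg μ hμ h3
    -- the values of the other fields of the face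
    have hβ : ∀ k t, b (vx lam e k t) μ = sg t * b (vx lam e k true) μ := fun k t => by
      have h4 := congrArg (b (vx lam e k t)) hmu
      rw [map_zsmul, map_sum, Finset.sum_eq_single k] at h4
      · rw [map_zsmul, hbe, if_pos rfl, smul_eq_mul, smul_eq_mul] at h4
        have h5 : N * (b (vx lam e k t) μ - sg t * b (vx lam e k true) μ) = 0 := by
          rw [mul_sub, h4]
          ring
        exact sub_eq_zero.1 ((mul_eq_zero.1 h5).resolve_left hN.ne')
      · intro a _ ha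
        rw [map_zsmul, hbe, if_neg ha, smul_zero]
      · intro h
        exact absurd (Finset.mem_univ k) h
    have hng : sg (!s') = -sg s' := by cases s' <;> simp [sg]
    have hsq : ∀ t : Bool, sg t * sg t = 1 := fun t => by cases t <;> simp [sg]
    have h6 := face_roots H l' hl' hmax' hN hlz hV hr hbl hbe i j hij s (!s') μ hμ
      (fun h => hcon.1 (by rw [h, hng, neg_smul, sub_neg_eq_add]))
      (fun h => hcon.2 (by rw [h, hng, neg_smul, sub_neg_eq_add]))
    have h7 : b (vx lam e i s) μ = N := by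
      rw [hβ, hs, ← mul_assoc, hsq, one_mul]
    have h8 : b (vx lam e j (!s')) μ = -N := by
      rw [hβ, hs', ← mul_assoc, hng, neg_mul, hsq, neg_one_mul]
    rw [h7, h8, sub_neg_eq_add, abs_of_pos (by omega)] at h6
    omega


end Vale.Agent.P280.H226
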