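import Vale.Agent.P280.H226.AC
import Vale.Agent.P280.H226.FaceB

/-! P280, T7, helper226: weights which are half a vertex (types `A_1` and `BC_n`). -/

open DirectSum Vale.Agent.P280.T Vale.Agent.P280.H127

namespace Vale.Agent.P280.H226

open Vale.Agent.P280.N Vale.Agent.P280.H490 Vale.Agent.P280.N.H989

section comb
variable {r : ℕ} {V : Finset (Fin r → ℤ)} {W : Set (Fin r → ℤ)}
  {b : (Fin r → ℤ) → ((Fin r → ℤ) →+ ℤ)} {N : ℤ}

/-- A vertex all of whose pairings with the other vertices vanish. -/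
def Iso (V : Finset (Fin r → ℤ)) (b : (Fin r → ℤ) → ((Fin r → ℤ) →+ ℤ)) (a : Fin r → ℤ) : Prop :=
  ∀ ψ ∈ V, ψ ≠ a → ψ ≠ -a → b ψ a = 0 ∧ b a ψ = 0

/-- If no vertex but `± a` pairs with `a` in an odd way, `a` is isolated. -/
theorem iso_of_even (h : RS V W b N) {a : Fin r → ℤ} (ha : a ∈ V)
    (hev : ∀ ψ ∈ V, ψ ≠ a → ψ ≠ -a → ∃ k : ℤ, b ψ a = 2 * (N * k)) : Iso V b a := by
  have hN := h.N0
  intro ψ hψ h1 h2
  have h3 : b ψ a = 0 := by
    obtain ⟨k, hk⟩ := hev ψ hψ h1 h2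
    rcases h.vals hψ (h.sub a ha) (Ne.symm h1) (fun h4 => h2 (by rw [h4, neg_neg])) with
      h4 | h4 | h4
    · exact h4
    · exfalso
      rw [hk] at h4
      have h5 : N * (2 * k - 1) = 0 := by linear_combination h4
      rcases mul_eq_zero.1 h5 with h6 | h6 <;> omega
    · exfalso
      rw [hk] at h4
      have h5 : N * (2 * k + 1) = 0 := by linear_combination h4
      rcases mul_eq_zero.1 h5 with h6 | h6 <;> omega
  exact ⟨h3, h.symm_zero hψ ha h3⟩

/-- The double of a weight is isolated. -/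
theorem iso_two (h : RS V W b N) {lam : Fin r → ℤ} (hlam : lam ∈ W) (ha : (2 : ℤ) • lam ∈ V) :
    Iso V b ((2 : ℤ) • lam) := by
  refine iso_of_even h ha fun ψ hψ h1 h2 => ?_
  obtain ⟨k, hk⟩ := h.dvd ψ hψ lam hlam
  exact ⟨k, by rw [map_zsmul, hk, smul_eq_mul]⟩

theorem b_half (h : RS V W b N) {lam : Fin r → ℤ} (ha : (2 : ℤ) • lam ∈ V) :
    b ((2 : ℤ) • lam) lam = N := by
  have h1 := h.two _ ha
  rw [map_zsmul, smul_eq_mul] at h1
  linarith

theorem Iso.half {a : Fin r → ℤ} (hi : Iso V b a) {lam : Fin r → ℤ}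
    (hlam : (2 : ℤ) • lam = a) {ψ : Fin r → ℤ} (hψ : ψ ∈ V) (h1 : ψ ≠ a) (h2 : ψ ≠ -a) :
    b ψ lam = 0 := by
  have h3 := (hi ψ hψ h1 h2).1
  rw [← hlam, map_zsmul, smul_eq_mul] at h3
  omega

/-- The value `2 N` is taken only at the vertex itself. -/
theorem Iso.eq_of (h : RS V W b N) {a : Fin r → ℤ} (ha : a ∈ V) (hi : Iso V b a) {ψ : Fin r → ℤ}
    (hψ : ψ ∈ V) (h0 : 0 < b a ψ) : ψ = a := by
  by_contra h1
  by_cases h2 : ψ = -a
  · rw [h2, map_neg, h.two a ha] at h0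
    have := h.N0
    omega
  · rw [(hi ψ hψ h1 h2).2] at h0
    exact lt_irrefl _ h0

end comb

variable {r : ℕ} {R : Type} [CommRing R] [IsDomain R] [Algebra ℂ R]
  {𝒜 : ℕ × (Fin r → ℤ) → Submodule ℂ R} [GradedAlgebra 𝒜]

theorem smul2_inj {a c : Fin r → ℤ} (h : (2 : ℤ) • a = (2 : ℤ) • c) : a = c :=
  smul_right_injective _ (two_ne_zero (α := ℤ)) h

/-- **The weights with pairing `N` with an isolated vertex** `a = 2 lam`. -/
theorem bc_list (H : H63X.Hyp 𝒜) {N : ℤ} {b : (Fin r → ℤ) → ((Fin r → ℤ) →+ ℤ)}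
    {E F : (Fin r → ℤ) → VF R} (hN : 0 < N)
    (hr : ∀ χ, Vx 𝒜 χ → Root 𝒜 N χ (b χ) (E χ) (F χ)) {a : Fin r → ℤ} (ha : Vx 𝒜 a)
    (hi : Iso (H63X.VV H) b a) {μ : Fin r → ℤ} (hμ : Wt 𝒜 μ) (hb : b a μ = N) :
    (2 : ℤ) • μ = a ∨ ∃ a', Vx 𝒜 a' ∧ a' ≠ a ∧ a' ≠ -a ∧ (2 : ℤ) • μ = a + a' ∧
      Iso (H63X.VV H) b a' := by
  have hRS := H63X.exists_RS H hN hr
  have hV : ∀ {χ}, Vx 𝒜 χ → χ ∈ H63X.VV H := fun h => (H63X.mem_VV H).2 h
  have haV := hV ha
  have hμV : ¬ Vx 𝒜 μ := by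
    intro h
    have h1 := hi.eq_of hRS haV (hV h) (by rw [hb]; exact hN)
    rw [h1, hRS.two a haV] at hb
    omega
  by_cases hint : Itr 𝒜 μ
  · left
    obtain ⟨n, χ, hn1, c, hn⟩ := exists_KS' H hN hr hμ hint
    by_cases h1 : n = 1
    · refine hi.eq_of hRS haV (hV (hn h1)) ?_
      rw [map_zsmul, hb, smul_eq_mul]
      omega
    · exfalso
      obtain ⟨j, hj⟩ := c.full a haV hb
      have : Nontrivial (Fin n) := Fin.nontrivial_iff_two_le.2 (by omega)
      obtain ⟨i, hij⟩ := exists_ne j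
      have h2 := c.pair i j hij
      have h3 : χ i ≠ a := fun h => hij (c.inj (h.trans hj))
      have h4 : χ i ≠ -a := by
        intro h
        have h5 := c.bl i
        rw [h, hRS.neg_b haV hμ, hb] at h5
        omega
      rw [← hj, (hi _ (c.mem i) h3 h4).1] at h2
      omega
  · right
    unfold Itr at hint
    push Not at hint
    obtain ⟨l, hl, hmax⟩ := hint
    rcases exists_face' H hN hr hμ l hl hmax with h | ⟨m, e, L0, h⟩
    · exact absurd h hμV
    · have hm := h.m1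
      obtain ⟨j⟩ : Nonempty (Fin m) := ⟨⟨0, by omega⟩⟩
      -- one of the two vertices is `a`
      obtain ⟨s, hs⟩ : ∃ s : Bool, vx μ e j s = a := by
        have h1 : b a (vx μ e j true) + b a (vx μ e j false) = 2 * N := by
          rw [← map_add, vx, vx, sg_true, sg_false, one_smul, neg_smul, one_smul]
          have h2 : μ + e j + (μ + -e j) = (2 : ℤ) • μ := by
            rw [two_zsmul]; abel
          rw [h2, map_zsmul, hb, smul_eq_mul]
        by_cases h2 : 0 < b a (vx μ e j true)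
        · exact ⟨true, hi.eq_of hRS haV (hV (h.vt j true)) h2⟩
        · exact ⟨false, hi.eq_of hRS haV (hV (h.vt j false)) (by omega)⟩
      have hvs := h.vt j (!s)
      have h2μ : (2 : ℤ) • μ = a + vx μ e j (!s) := by
        rw [← hs, vx, vx, two_zsmul]
        cases s <;> simp [sg] <;> abel
      have hne : vx μ e j (!s) ≠ a := by
        intro h1
        rw [h1, ← two_zsmul] at h2μ
        exact hμV (by rw [smul2_inj h2μ]; exact ha)
      have hne' : vx μ e j (!s) ≠ -a := by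
        intro h1
        rw [h1, add_neg_cancel] at h2μ
        exact H63X.c03_wt_ne_zero H hμ ((smul_eq_zero.1 h2μ).resolve_left (by norm_num))
      refine ⟨_, hvs, hne, hne', h2μ, ?_⟩
      refine iso_of_even hRS (hV hvs) fun ψ hψ h1 h2 => ?_
      obtain ⟨k, hk⟩ := hRS.dvd ψ hψ μ hμ
      have h3 := congrArg (b ψ) h2μ
      rw [map_zsmul, map_add, hk, smul_eq_mul] at h3
      by_cases h4 : ψ = a
      · refine ⟨0, ?_⟩
        rw [h4, (hi _ (hV hvs) hne hne').2]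
        ring
      · by_cases h5 : ψ = -a
        · refine ⟨0, ?_⟩
          rw [h5, hRS.neg_b haV hvs.1, (hi _ (hV hvs) hne hne').2]
          ring
        · rw [(hi ψ hψ h4 h5).1, zero_add] at h3
          exact ⟨k, h3.symm⟩

end Vale.Agent.P280.H226
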