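import Vale.Agent.P280.H226.EqFld

/-! P280, helper226: a torus with isolated fixed points gives a vector field with nondegenerate
zeros and an automorphism with nondegenerate periodic points. -/

open DirectSum

namespace Vale.Agent.P280.H226

namespace Eq

open Vale.Agent.P280.N

section
variable {r : ℕ} {R : Type} [CommRing R] [Algebra ℂ R]
  {𝒜 : ℕ → Submodule ℂ R} {ℬ : ℕ × (Fin r → ℤ) → Submodule ℂ R} [GradedAlgebra ℬ]

/-- At a fixed point without tangent weight `0`, a tangent vector which vanishes on the elements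
of degree one of other weights is a multiple of the Euler vector. -/
theorem euler_of_one (hX : T.IsTorusManifold ℬ) {x : R →ₐ[ℂ] ℂ} {ν : Fin r → ℤ}
    (hx : T.IsFixed ℬ x ν) (h0 : ¬ T.TangentWeight ℬ x ν 0) {v : R →ₗ[ℂ] ℂ}
    (hv : T.IsTangent x v) (h1 : ∀ m, m ≠ ν → ∀ h ∈ ℬ (1, m), v h = 0) :
    ∃ k : ℂ, ∀ d m, ∀ h ∈ ℬ (d, m), v h = k * d * x h := by
  obtain ⟨v0, hv0, hw0, hvu⟩ := T.exists_component hx hv 0
  have h2 : ∃ c : ℂ, ∀ d m, ∀ h ∈ ℬ (d, m), v0 h = c * d * x h := by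
    by_contra hcon
    push Not at hcon
    exact h0 ⟨v0, hv0, hw0, hcon⟩
  obtain ⟨c, hc⟩ := h2
  obtain ⟨Eu, hEu⟩ := H587.exists_euler ℬ
  have hw : T.IsTangent x (v - c • x.toLinearMap.comp (Eu : R →ₗ[ℂ] R)) := by
    intro a b
    change v (a * b) - c * x (Eu (a * b)) = x a * (v b - c * x (Eu b)) + x b * (v a - c * x (Eu a))
    rw [hv, Derivation.leibniz, map_add, smul_eq_mul, smul_eq_mul, map_mul, map_mul]
    ring
  refine ⟨c, fun d m h hh => ?_⟩
  have h3 := H587.tangent_eq_zero hX hw (fun m g hg => by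
    change v g - c * x (Eu g) = 0
    rw [hEu 1 m g hg, Nat.cast_one, one_smul]
    by_cases hm : m = ν
    · subst hm
      have h4 := hvu g (T.mem_coarse hg (by rw [T.tw_apply, one_smul, sub_self]))
      rw [← h4, hc 1 m g hg, Nat.cast_one, mul_one, sub_self]
    · have h5 : x g = 0 := by
        by_contra hne
        have := hx 1 m g hg hne
        rw [one_smul] at this
        exact hm this
      rw [h1 m hm g hg, h5, mul_zero, sub_self]) h
  change v h - c * x (Eu h) = 0 at h3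
  rw [hEu d m h hh, map_smul, smul_eq_mul, sub_eq_zero] at h3
  rw [h3]
  ring

omit [GradedAlgebra ℬ] in
theorem mem_wts {m : Fin r → ℤ} {h : R} (hh : h ∈ ℬ (1, m)) {v : R →ₗ[ℂ] ℂ} (hv : v h ≠ 0) :
    m ∈ H587.wts ℬ := ⟨h, hh, fun h0 => hv (by rw [h0, map_zero])⟩

/-- Points with one eigenvalue of a generic element are fixed. -/
theorem fixed_of_eig (hX : T.IsTorusManifold ℬ) {x : R →ₐ[ℂ] ℂ} (hx0 : ¬ T.IsVertex ℬ x)
    {F : (Fin r → ℤ) → ℂ} (hF : Set.InjOn F (H587.wts ℬ)) {c : ℂ}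
    (h : ∀ m, ∀ h ∈ ℬ (1, m), F m * x h = c * x h) :
    ∃ ν, T.IsFixed ℬ x ν ∧ F ν = c ∧ ν ∈ H587.wts ℬ := by
  obtain ⟨ν, f, hf, hxf⟩ := (T.not_isVertex_iff hX.gen x).1 hx0
  have h1 : ∀ m, ∀ g ∈ ℬ (1, m), x g ≠ 0 → F m = c := fun m g hg hne =>
    mul_right_cancel₀ hne (h m g hg)
  have hν : ν ∈ H587.wts ℬ := mem_wts hf (v := x.toLinearMap) hxf
  refine ⟨ν, H587.isFixed_of_one hX fun m g hg hne => ?_, h1 ν f hf hxf, hν⟩
  exact hF (mem_wts hg (v := x.toLinearMap) hne) hν (by rw [h1 m g hg hne, h1 ν f hf hxf])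

/-- A torus with isolated fixed points gives a vector field with nondegenerate zeros. -/
theorem field_of_torus (hX : T.IsTorusManifold ℬ) (hr : ∀ d, 𝒜 d = ⨆ m : Fin r → ℤ, ℬ (d, m))
    (hiso : ∀ x ν, ¬ T.IsVertex ℬ x → T.IsFixed ℬ x ν → ¬ T.TangentWeight ℬ x ν 0) :
    HasNondegenerateField 𝒜 := by
  obtain ⟨l, hl⟩ := H587.exists_generic (T.finite_weights hX)
  obtain ⟨D, hD⟩ := exists_wtDer ℬ l
  have hlC : Set.InjOn (fun m : Fin r → ℤ => ((l m : ℤ) : ℂ)) (H587.wts ℬ) := by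
    intro m hm m' hm' h
    have h' : ((l m : ℤ) : ℂ) = ((l m' : ℤ) : ℂ) := h
    exact hl hm hm' (by exact_mod_cast h')
  refine ⟨D, fun d h hh => ?_, fun x c hx0 hx v hv hvk => ?_⟩
  · have h1 : 𝒜 d ≤ (𝒜 d).comap (D : R →ₗ[ℂ] R) := H63.ref_sub hr fun m a ha => by
      rw [Submodule.mem_comap]
      change D a ∈ 𝒜 d
      rw [hD d m a ha]
      exact Submodule.smul_mem _ _ (H63.ref_le hr d m ha)
    exact h1 hh
  · obtain ⟨k, hk⟩ := hvk
    have hx0' : ¬ T.IsVertex ℬ x := fun h => hx0 ((H63.ref_isVertex hr).1 h)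
    obtain ⟨ν, hν, hc, hνw⟩ := fixed_of_eig hX hx0' hlC (c := c) (fun m h hh => by
      have h1 := hx 1 h (H63.ref_le hr 1 m hh)
      rw [hD 1 m h hh, map_smul, smul_eq_mul, Nat.cast_one, mul_one] at h1
      exact h1)
    obtain ⟨k', hk'⟩ := euler_of_one hX hν (hiso x ν hx0' hν) hv fun m hm h hh => by
      by_contra hne
      have h1 := hk 1 h (H63.ref_le hr 1 m hh)
      have h2 : x h = 0 := by
        by_contra h3
        have := hν 1 m h hh h3
        rw [one_smul] at this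
        exact hm this
      rw [hD 1 m h hh, map_smul, smul_eq_mul, h2, mul_zero, add_zero, Nat.cast_one, mul_one] at h1
      have h3 := mul_right_cancel₀ hne h1
      rw [← hc] at h3
      exact hm (hlC (mem_wts hh hne) hνw h3)
    refine ⟨k', fun d => ref_lin hr (F := v) (G := (k' * d) • x.toLinearMap) fun m a ha => ?_⟩
    exact hk' d m a ha

/-- The automorphism given by an element of the torus. -/
theorem exists_aut (l : (Fin r → ℤ) →+ ℤ) {t : ℂ} (ht : t ≠ 0) :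
    ∃ g : R ≃ₐ[ℂ] R, ∀ d m, ∀ h ∈ ℬ (d, m), g h = (t ^ (l m)) • h := by
  have key : ∀ t : ℂ, t ≠ 0 → ∃ g : R →ₐ[ℂ] R, ∀ d m, ∀ h ∈ ℬ (d, m), g h = (t ^ (l m)) • h := by
    intro t ht
    obtain ⟨g, hg⟩ := T.exists_algHom ℬ
      (fun i : ℕ × (Fin r → ℤ) => (t ^ (l i.2)) • (LinearMap.id : R →ₗ[ℂ] R)) (by simp) (by
        rintro ⟨d, m⟩ ⟨d', m'⟩ a ha b hb
        dsimp only [Prod.mk_add_mk]
        rw [LinearMap.smul_apply, LinearMap.smul_apply, LinearMap.smul_apply, LinearMap.id_apply,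
          LinearMap.id_apply, LinearMap.id_apply, map_add, zpow_add₀ ht, smul_mul_smul_comm])
    exact ⟨g, fun d m h hh => hg (d, m) h hh⟩
  obtain ⟨g, hg⟩ := key t ht
  obtain ⟨g', hg'⟩ := key t⁻¹ (inv_ne_zero ht)
  refine ⟨AlgEquiv.ofAlgHom g g' ?_ ?_, hg⟩
  · refine T.algHom_ext_graded ℬ ?_
    rintro ⟨d, m⟩ a ha
    rw [AlgHom.comp_apply, hg' d m a ha, map_smul, hg d m a ha, smul_smul, inv_zpow,
      inv_mul_cancel₀ (zpow_ne_zero _ ht), one_smul]
    rfl
  · refine T.algHom_ext_graded ℬ ?_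
    rintro ⟨d, m⟩ a ha
    rw [AlgHom.comp_apply, hg d m a ha, map_smul, hg' d m a ha, smul_smul, inv_zpow,
      mul_inv_cancel₀ (zpow_ne_zero _ ht), one_smul]
    rfl

/-- A torus with isolated fixed points gives an automorphism with nondegenerate periodic
points. -/
theorem aut_of_torus (hX : T.IsTorusManifold ℬ) (hr : ∀ d, 𝒜 d = ⨆ m : Fin r → ℤ, ℬ (d, m))
    (hiso : ∀ x ν, ¬ T.IsVertex ℬ x → T.IsFixed ℬ x ν → ¬ T.TangentWeight ℬ x ν 0) :
    HasNondegenerateAutomorphism 𝒜 := by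
  obtain ⟨l, hl⟩ := H587.exists_generic (T.finite_weights hX)
  obtain ⟨g, hg⟩ := exists_aut (ℬ := ℬ) l (t := 2) two_ne_zero
  have hit : ∀ n : ℕ, ∀ d m, ∀ h ∈ ℬ (d, m), (⇑g)^[n] h = ((2 : ℂ) ^ ((n : ℤ) * l m)) • h := by
    intro n d m h hh
    induction n with
    | zero => simp
    | succ n ih =>
      rw [Function.iterate_succ_apply', ih, map_smul, hg d m h hh, smul_smul, ← zpow_add₀
        (two_ne_zero), Nat.cast_succ, add_mul, one_mul]
  refine ⟨g, fun d h hh => ?_, fun n hn x c hx0 hx v hv hvk => ?_⟩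
  · have h1 : 𝒜 d ≤ (𝒜 d).comap (g : R →ₐ[ℂ] R).toLinearMap := H63.ref_sub hr fun m a ha => by
      rw [Submodule.mem_comap]
      change g a ∈ 𝒜 d
      rw [hg d m a ha]
      exact Submodule.smul_mem _ _ (H63.ref_le hr d m ha)
    exact h1 hh
  · have hlC : Set.InjOn (fun m : Fin r → ℤ => (2 : ℂ) ^ ((n : ℤ) * l m)) (H587.wts ℬ) := by
      intro m hm m' hm' h
      have h1 : ((2 : ℝ) ^ ((n : ℤ) * l m)) = (2 : ℝ) ^ ((n : ℤ) * l m') := by
        have h2 : (((2 : ℝ) ^ ((n : ℤ) * l m) : ℝ) : ℂ) = (((2 : ℝ) ^ ((n : ℤ) * l m') : ℝ) : ℂ) := by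
          push_cast
          exact h
        exact_mod_cast h2
      have h3 := zpow_right_injective₀ (two_pos : (0 : ℝ) < 2) (by norm_num) h1
      exact hl hm hm' (mul_left_cancel₀ (by exact_mod_cast hn.ne') h3)
    obtain ⟨k, hk⟩ := hvk
    have hx0' : ¬ T.IsVertex ℬ x := fun h => hx0 ((H63.ref_isVertex hr).1 h)
    obtain ⟨ν, hν, hc, hνw⟩ := fixed_of_eig hX hx0' hlC (c := c) (fun m h hh => by
      have h1 := hx 1 h (H63.ref_le hr 1 m hh)
      rw [hit n 1 m h hh, map_smul, smul_eq_mul, pow_one] at h1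
      exact h1)
    obtain ⟨k', hk'⟩ := euler_of_one hX hν (hiso x ν hx0' hν) hv fun m hm h hh => by
      by_contra hne
      have h1 := hk 1 h (H63.ref_le hr 1 m hh)
      have h2 : x h = 0 := by
        by_contra h3
        have := hν 1 m h hh h3
        rw [one_smul] at this
        exact hm this
      rw [hit n 1 m h hh, map_smul, smul_eq_mul, h2, mul_zero, add_zero, pow_one] at h1
      have h3 := mul_right_cancel₀ hne h1
      rw [← hc] at h3
      exact hm (hlC (mem_wts hh hne) hνw h3)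
    refine ⟨k', fun d => ref_lin hr (F := v) (G := (k' * d) • x.toLinearMap) fun m a ha => ?_⟩
    exact hk' d m a ha

end

end Eq

end Vale.Agent.P280.H226
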