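import Vale.Agent.P280.H226.EqUni
import Vale.Agent.P280.H226.EqGen

/-! P280, helper226: an automorphism with nondegenerate periodic points gives a torus with
isolated fixed points. -/

open DirectSum

namespace Vale.Agent.P280.H226.Eq

open Vale.Agent.P280.N

section
variable {r : ℕ} {R : Type} [CommRing R] [Algebra ℂ R]
  {𝒜 : ℕ → Submodule ℂ R} {ℬ : ℕ × (Fin r → ℤ) → Submodule ℂ R} [GradedAlgebra ℬ]

/-- The automorphism `f` acts on the pieces with one generalised eigenvalue, given by a character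
`χ` of the torus; its nondegenerate fixed points force isolated fixed points of the torus. -/
theorem iso_of_aut (hX : T.IsTorusManifold ℬ) (hr : ∀ d, 𝒜 d = ⨆ m : Fin r → ℤ, ℬ (d, m))
    {f : R →ₐ[ℂ] R} (hf : ∀ d m, ∀ h ∈ ℬ (d, m), f h ∈ ℬ (d, m)) {χ : (Fin r → ℤ) → ℂˣ}
    (hχ0 : χ 0 = 1) (hχ : ∀ m m', χ (m + m') = χ m * χ m')
    (hdiag : ∀ d m, ∀ h ∈ ℬ (d, m), ∃ n : ℕ,
      ((f.toLinearMap - (χ m : ℂ) • (1 : Module.End ℂ R)) ^ n) h = 0)
    (hnd : ∀ (x : R →ₐ[ℂ] ℂ) (c : ℂ), ¬ S.IsVertex 𝒜 x →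
      (∀ d, ∀ h ∈ 𝒜 d, x (f h) = c ^ d * x h) → ∀ v : R →ₗ[ℂ] ℂ, S.IsTangent x v →
      (∃ k : ℂ, ∀ d, ∀ h ∈ 𝒜 d, v (f h) = c ^ d * (v h + k * d * x h)) →
      ∃ k : ℂ, ∀ d, ∀ h ∈ 𝒜 d, v h = k * d * x h)
    (x : R →ₐ[ℂ] ℂ) (ν : Fin r → ℤ) (hx0 : ¬ T.IsVertex ℬ x) (hx : T.IsFixed ℬ x ν) :
    ¬ T.TangentWeight ℬ x ν 0 := by
  intro hT
  obtain ⟨γ, hγ⟩ := T.exists_algHom ℬ
    (fun i : ℕ × (Fin r → ℤ) => (((χ i.2)⁻¹ : ℂˣ) : ℂ) • f.toLinearMap) (by
      change (((χ 0)⁻¹ : ℂˣ) : ℂ) • f 1 = 1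
      rw [hχ0, inv_one, Units.val_one, map_one, one_smul]) (by
      rintro ⟨d, m⟩ ⟨d', m'⟩ a ha b hb
      change (((χ (m + m'))⁻¹ : ℂˣ) : ℂ) • f (a * b) =
        ((((χ m)⁻¹ : ℂˣ) : ℂ) • f a) * ((((χ m')⁻¹ : ℂˣ) : ℂ) • f b)
      rw [hχ, mul_inv, Units.val_mul, map_mul, smul_mul_smul_comm])
  have hγ' : ∀ d m, ∀ h ∈ ℬ (d, m), γ h = (((χ m)⁻¹ : ℂˣ) : ℂ) • f h := fun d m h hh =>
    hγ (d, m) h hh
  have hfγ : ∀ d m, ∀ h ∈ ℬ (d, m), f h = (χ m : ℂ) • γ h := by
    intro d m h hh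
    rw [hγ' d m h hh, smul_smul, Units.mul_inv, one_smul]
  have hγm : ∀ d m, ∀ h ∈ ℬ (d, m), γ h ∈ ℬ (d, m) := by
    intro d m h hh
    rw [hγ' d m h hh]
    exact Submodule.smul_mem _ _ (hf d m h hh)
  have hpow : ∀ (n : ℕ) (d : ℕ) (m : Fin r → ℤ), ∀ h ∈ ℬ (d, m),
      ((f.toLinearMap - (χ m : ℂ) • (1 : Module.End ℂ R)) ^ n) h ∈ ℬ (d, m) ∧
      ((γ.toLinearMap - 1 : Module.End ℂ R) ^ n) h = (((χ m)⁻¹ : ℂˣ) : ℂ) ^ n •
        ((f.toLinearMap - (χ m : ℂ) • (1 : Module.End ℂ R)) ^ n) h := by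
    intro n d m h hh
    induction n with
    | zero => exact ⟨hh, by simp⟩
    | succ n ih =>
      obtain ⟨h1, h2⟩ := ih
      have e1 : ∀ a : R, (f.toLinearMap - (χ m : ℂ) • (1 : Module.End ℂ R)) a =
        f a - (χ m : ℂ) • a := fun a => rfl
      have e2 : ∀ a : R, (γ.toLinearMap - 1 : Module.End ℂ R) a = γ a - a := fun a => rfl
      rw [pow_succ', Module.End.mul_apply, pow_succ', Module.End.mul_apply, e1]
      refine ⟨Submodule.sub_mem _ (hf d m _ h1) (Submodule.smul_mem _ _ h1), ?_⟩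
      generalize ((f.toLinearMap - (χ m : ℂ) • (1 : Module.End ℂ R)) ^ n) h = z at h1 h2
      have e3 : (((χ m)⁻¹ : ℂˣ) : ℂ) • (f z - (χ m : ℂ) • z) = (((χ m)⁻¹ : ℂˣ) : ℂ) • f z - z := by
        rw [smul_sub, smul_smul, Units.inv_mul, one_smul]
      rw [h2, map_smul, e2, hγ' d m _ h1, pow_succ, mul_smul, e3]
  have hn : ∀ h, ∃ n : ℕ, ((γ.toLinearMap - 1 : Module.End ℂ R) ^ n) h = 0 := by
    intro h
    induction h using DirectSum.Decomposition.inductionOn ℬ with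
    | zero => exact ⟨0, by simp⟩
    | @homogeneous i a =>
      obtain ⟨n, hn⟩ := hdiag i.1 i.2 a a.2
      exact ⟨n, by rw [(hpow n i.1 i.2 a a.2).2, hn, smul_zero]⟩
    | add a b ha hb =>
      obtain ⟨n, hn⟩ := ha
      obtain ⟨n', hn'⟩ := hb
      refine ⟨n + n', ?_⟩
      rw [map_add, pow_add, Module.End.mul_apply, Module.End.mul_apply, hn', map_zero, add_zero,
        ← Module.End.mul_apply, ← pow_add, add_comm, pow_add, Module.End.mul_apply, hn, map_zero]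
  obtain ⟨y, hy0, hy, hyγ, hsame⟩ := lim_uni hX hγm hn hx0 hx
  have hTy : T.TangentWeight ℬ y ν 0 := by
    by_contra hno
    exact hno (A04.same_tw (A04.samePoint_symm (hsame hno)) hT)
  obtain ⟨v, hv, hw, hne, k, hk⟩ := exists_eigvec hX (T := (γ.toLinearMap - 1 : Module.End ℂ R))
    (fun d m h hh => Submodule.sub_mem _ (hγm d m h hh) hh) hn (fun v hv a b => by
      change v (γ (a * b) - a * b) = y a * v (γ b - b) + y b * v (γ a - a)
      rw [map_mul, map_sub, map_sub, map_sub, hv, hv, hyγ, hyγ]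
      ring) hTy
  have hk' : ∀ d m, ∀ h ∈ ℬ (d, m), v (γ h) = v h + k * d * y h := by
    intro d m h hh
    have h1 := hk d m h hh
    change v (γ h - h) = k * d * y h at h1
    rw [map_sub] at h1
    linear_combination h1
  have hχn : ∀ d : ℕ, (χ (d • ν) : ℂ) = (χ ν : ℂ) ^ d := by
    intro d
    induction d with
    | zero => rw [zero_smul, hχ0, pow_zero, Units.val_one]
    | succ d ih => rw [succ_nsmul, hχ, Units.val_mul, ih, pow_succ]
  obtain ⟨k', hk''⟩ := hnd y (χ ν) (fun h => hy0 ((H63.ref_isVertex hr).2 h)) (by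
      intro d
      refine ref_lin hr (F := y.toLinearMap.comp f.toLinearMap)
        (G := ((χ ν : ℂ) ^ d) • y.toLinearMap) fun m a ha => ?_
      change y (f a) = (χ ν : ℂ) ^ d * y a
      rw [hfγ d m a ha, map_smul, smul_eq_mul, hyγ]
      by_cases hya : y a = 0
      · rw [hya, mul_zero, mul_zero]
      · rw [hy d m a ha hya, hχn]) v hv ⟨k, by
      intro d
      refine ref_lin hr (F := v.comp f.toLinearMap)
        (G := ((χ ν : ℂ) ^ d) • (v + (k * d) • y.toLinearMap)) fun m a ha => ?_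
      change v (f a) = (χ ν : ℂ) ^ d * (v a + k * d * y a)
      rw [hfγ d m a ha, map_smul, smul_eq_mul, hk' d m a ha]
      by_cases hm : m = d • ν
      · rw [hm, hχn]
      · have hva : v a = 0 := by
          by_contra h1
          have h2 := hw d m a ha h1
          rw [add_zero] at h2
          exact hm h2
        have hya : y a = 0 := by
          by_contra h1
          exact hm (hy d m a ha h1)
        rw [hva, hya]
        ring⟩
  obtain ⟨d, m, h, hh, hne'⟩ := hne k'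
  exact hne' (hk'' d h (H63.ref_le hr d m hh))

end

/-- Finitely generated abelian groups have an exponent of their torsion. -/
theorem exists_exponent {G : Type} [AddCommGroup G] {S : Set G} (hS : S.Finite) :
    ∃ k : ℕ, 0 < k ∧ ∀ g ∈ Submodule.span ℤ S, ∀ n : ℤ, n ≠ 0 → n • g = 0 → k • g = 0 := by
  classical
  let Λ : Submodule ℤ G := Submodule.span ℤ S
  have hfin : Module.Finite ℤ Λ := Module.Finite.span_of_finite ℤ hS
  have hN : IsNoetherian ℤ Λ := isNoetherian_of_isNoetherianRing_of_finite ℤ Λ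
  obtain ⟨s, hs⟩ : (Submodule.torsion ℤ Λ).FG := hN.noetherian _
  have hex : ∀ t : Λ, ∃ a : ℕ, 0 < a ∧ (t ∈ s → a • t = 0) := by
    intro t
    by_cases ht : t ∈ s
    · have h1 : t ∈ Submodule.torsion ℤ Λ := by
        rw [← hs]
        exact Submodule.subset_span ht
      rw [Submodule.mem_torsion_iff] at h1
      obtain ⟨a, ha⟩ := h1
      have ha0 : (a : ℤ) ≠ 0 := nonZeroDivisors.coe_ne_zero a
      refine ⟨(a : ℤ).natAbs, Int.natAbs_pos.2 ha0, fun _ => ?_⟩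
      have h2 : (a : ℤ) • t = 0 := ha
      rcases Int.natAbs_eq (a : ℤ) with h | h
      · rw [h, natCast_zsmul] at h2
        exact h2
      · rw [h, neg_smul, natCast_zsmul, neg_eq_zero] at h2
        exact h2
    · exact ⟨1, one_pos, fun h => (ht h).elim⟩
  choose a ha0 ha using hex
  refine ⟨∏ t ∈ s, a t, Finset.prod_pos fun t _ => ha0 t, fun g hg n hn h0 => ?_⟩
  have h1 : (⟨g, hg⟩ : Λ) ∈ Submodule.torsion ℤ Λ := by
    rw [Submodule.mem_torsion_iff]
    exact ⟨⟨n, mem_nonZeroDivisors_of_ne_zero hn⟩, Subtype.ext h0⟩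
  have h2 : ∀ z ∈ Submodule.torsion ℤ Λ, (∏ t ∈ s, a t) • z = 0 := by
    intro z hz
    rw [← hs] at hz
    induction hz using Submodule.span_induction with
    | mem t ht =>
      obtain ⟨q, hq⟩ := Finset.dvd_prod_of_mem a ht
      rw [hq, mul_comm, mul_smul, ha t ht, smul_zero]
    | zero => rw [smul_zero]
    | add x y _ _ hx hy => rw [smul_add, hx, hy, add_zero]
    | smul c x _ hx => rw [smul_comm, hx, smul_zero]
  exact congrArg Subtype.val (h2 _ h1)

/-- Generalised eigenvectors of an operator are generalised eigenvectors of its powers. -/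
theorem gen_pow {V : Type} [AddCommGroup V] [Module ℂ V] (F : Module.End ℂ V) (u : ℂ) (k n : ℕ)
    {x : V} (hx : ((F - u • (1 : Module.End ℂ V)) ^ n) x = 0) :
    ((F ^ k - (u ^ k) • (1 : Module.End ℂ V)) ^ n) x = 0 := by
  have hc : Commute F (u • (1 : Module.End ℂ V)) := (Commute.one_right F).smul_right u
  have h1 := hc.geom_sum₂_mul k
  have h2 := hc.mul_geom_sum₂ k
  rw [smul_pow, one_pow] at h1 h2
  set q : Module.End ℂ V :=
    ∑ i ∈ Finset.range k, F ^ i * (u • (1 : Module.End ℂ V)) ^ (k - 1 - i) with hq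
  have h3 : Commute q (F - u • (1 : Module.End ℂ V)) := h1.trans h2.symm
  rw [← h1, h3.mul_pow, Module.End.mul_apply, hx, map_zero]

section
variable {R : Type} [CommRing R] [Algebra ℂ R] {𝒜 : ℕ → Submodule ℂ R} [GradedAlgebra 𝒜]

/-- The generalised eigenspaces of an endomorphism. -/
noncomputable def EvA (f : R →ₐ[ℂ] R) (g : Additive ℂˣ) : Submodule ℂ R :=
  Module.End.maxGenEigenspace f.toLinearMap ((Additive.toMul g : ℂˣ) : ℂ)

theorem EvA_indep (f : R →ₐ[ℂ] R) : iSupIndep (EvA f) :=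
  (Module.End.independent_maxGenEigenspace f.toLinearMap).comp
    (f := fun g : Additive ℂˣ => ((Additive.toMul g : ℂˣ) : ℂ))
    (Units.val_injective.comp Additive.toMul.injective)

theorem EvA_mul (f : R →ₐ[ℂ] R) (g g' : Additive ℂˣ) (a : R) (ha : a ∈ EvA f g) (b : R)
    (hb : b ∈ EvA f g') : a * b ∈ EvA f (g + g') := by
  unfold EvA at *
  rw [Module.End.mem_maxGenEigenspace] at ha hb ⊢
  obtain ⟨k, hk⟩ := ha
  obtain ⟨l, hl⟩ := hb
  refine ⟨k + l, ?_⟩
  have := R2.H730.gen_mul f _ _ (k + l) k l le_rfl a b hk hl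
  rw [toMul_add, Units.val_mul]
  exact this

theorem EvA_one (f : R →ₐ[ℂ] R) : (1 : R) ∈ EvA f 0 := by
  unfold EvA
  rw [Module.End.mem_maxGenEigenspace]
  exact ⟨1, by simp⟩

/-- An automorphism with nondegenerate periodic points gives a torus with isolated fixed
points. -/
theorem torus_of_aut (hX : S.IsProjectiveManifold 𝒜) (h : HasNondegenerateAutomorphism 𝒜) :
    ∃ r, HasIsolatedTorus 𝒜 r := by
  classical
  obtain ⟨g, hg, hnd⟩ := h
  have hfin : FiniteDimensional ℂ (𝒜 1) := Module.Finite.iff_fg.2 (R2.H730.fin_one hX)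
  obtain ⟨E, hE⟩ := H63.one_leV (f := (g : R →ₐ[ℂ] R)) g.injective (hg 1) hfin
  obtain ⟨k, hk0, hk⟩ := exists_exponent (S := Additive.ofMul '' (E : Set ℂˣ))
    (E.finite_toSet.image _)
  let f : R →ₐ[ℂ] R := (g : R →ₐ[ℂ] R) ^ k
  have hf : ∀ h, f h = (⇑g)^[k] h := by
    intro h
    change ((g : R →ₐ[ℂ] R) ^ k) h = _
    have : ∀ (n : ℕ) (h : R), ((g : R →ₐ[ℂ] R) ^ n) h = (⇑g)^[n] h := by
      intro n
      induction n with
      | zero => intro h; rfl
      | succ n ih =>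
        intro h
        rw [pow_succ, AlgHom.mul_apply, ih, Function.iterate_succ_apply]
        rfl
    exact this k h
  have hfl : f.toLinearMap = (g : R →ₐ[ℂ] R).toLinearMap ^ k := by
    have : ∀ n : ℕ, ((g : R →ₐ[ℂ] R) ^ n).toLinearMap = (g : R →ₐ[ℂ] R).toLinearMap ^ n := by
      intro n
      induction n with
      | zero => rfl
      | succ n ih =>
        rw [pow_succ, pow_succ, ← ih]
        rfl
    exact this k
  have hfA : ∀ d, ∀ h ∈ 𝒜 d, f h ∈ 𝒜 d := by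
    intro d h hh
    rw [hf]
    have : ∀ n : ℕ, (⇑g)^[n] h ∈ 𝒜 d := by
      intro n
      induction n with
      | zero => exact hh
      | succ n ih =>
        rw [Function.iterate_succ_apply']
        exact hg d _ ih
    exact this k
  let S' : Set (Additive ℂˣ) := (fun a => k • a) '' (Additive.ofMul '' (E : Set ℂˣ))
  have hS' : S'.Finite := (E.finite_toSet.image _).image _
  have h1 : 𝒜 1 ≤ ⨆ a : S', 𝒜 1 ⊓ EvA f a := by
    refine hE.trans (iSup₂_le fun u hu => ?_)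
    have hm : k • Additive.ofMul u ∈ S' := ⟨Additive.ofMul u, ⟨u, hu, rfl⟩, rfl⟩
    refine le_trans ?_ (le_iSup (fun a : S' => 𝒜 1 ⊓ EvA f a) ⟨_, hm⟩)
    rintro a ⟨ha1, ha2⟩
    refine ⟨ha1, ?_⟩
    change a ∈ EvA f (k • Additive.ofMul u)
    unfold EvA
    have ha3 : a ∈ Module.End.maxGenEigenspace (g : R →ₐ[ℂ] R).toLinearMap (u : ℂ) := ha2
    rw [Module.End.mem_maxGenEigenspace] at ha3 ⊢
    obtain ⟨n, hn⟩ := ha3
    refine ⟨n, ?_⟩
    rw [hfl, toMul_nsmul, toMul_ofMul, Units.val_pow_eq_pow_val]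
    exact gen_pow _ _ k n hn
  have h2 : ∀ a ∈ Submodule.span ℤ S', ∀ n : ℤ, n ≠ 0 → n • a = 0 → a = 0 := by
    intro a ha n hn h0
    have h3 : ∀ a ∈ Submodule.span ℤ S', ∃ b ∈ Submodule.span ℤ (Additive.ofMul '' (E : Set ℂˣ)),
        a = k • b := by
      intro a ha
      induction ha using Submodule.span_induction with
      | mem a ha =>
        obtain ⟨b, hb, rfl⟩ := ha
        exact ⟨b, Submodule.subset_span hb, rfl⟩
      | zero => exact ⟨0, Submodule.zero_mem _, by rw [smul_zero]⟩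
      | add a b _ _ ha hb =>
        obtain ⟨a', ha', rfl⟩ := ha
        obtain ⟨b', hb', rfl⟩ := hb
        exact ⟨a' + b', Submodule.add_mem _ ha' hb', (nsmul_add a' b' k).symm⟩
      | smul c a _ ha =>
        obtain ⟨a', ha', rfl⟩ := ha
        exact ⟨c • a', Submodule.smul_mem _ _ ha', by rw [smul_comm]⟩
    obtain ⟨b, hb, rfl⟩ := h3 a ha
    refine hk b hb (n * k) (mul_ne_zero hn (by exact_mod_cast hk0.ne')) ?_
    rw [mul_smul, natCast_zsmul]
    exact h0
  obtain ⟨r, φ, hgr, -, hr⟩ := exists_tor (𝒜 := 𝒜) (EvA f) (EvA_indep f) (EvA_mul f) (EvA_one f)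
    hX.gen hS' h1 h2
  have hX' : T.IsTorusManifold (fun q : ℕ × (Fin r → ℤ) => 𝒜 q.1 ⊓ EvA f (φ q.2)) :=
    H63.ref_isTorusManifold hr hX
  refine ⟨r, fun q : ℕ × (Fin r → ℤ) => 𝒜 q.1 ⊓ EvA f (φ q.2), hgr, hr, ?_⟩
  refine iso_of_aut hX' hr (f := f) ?_ (χ := fun m => Additive.toMul (φ m)) ?_ ?_ ?_ ?_
  · rintro d m h ⟨h3, h4⟩
    exact ⟨hfA d h h3, Module.End.mapsTo_maxGenEigenspace_of_comm (Commute.refl _) _ h4⟩
  · rw [map_zero, toMul_zero]
  · intro m m'
    rw [map_add, toMul_add]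
  · rintro d m h ⟨-, h4⟩
    exact (Module.End.mem_maxGenEigenspace _ _ _).1 h4
  · intro x c hx0 hx v hv hvk
    refine hnd k hk0 x c hx0 (fun d h hh => ?_) v hv ?_
    · rw [← hf]
      exact hx d h hh
    · obtain ⟨k', hk'⟩ := hvk
      exact ⟨k', fun d h hh => by
        rw [← hf]
        exact hk' d h hh⟩

end

end Vale.Agent.P280.H226.Eq
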