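import Vale.Agent.P280.H226.EqGen

/-! P280, helper226: a torus with isolated fixed points has a one-parameter group with isolated
fixed points. -/

open DirectSum

namespace Vale.Agent.P280.H226

namespace Eq

section
variable {r : ℕ} {R : Type} [CommRing R] [Algebra ℂ R]
  {𝒜 : ℕ → Submodule ℂ R} {ℬ : ℕ × (Fin r → ℤ) → Submodule ℂ R} [GradedAlgebra ℬ]

/-- The weights of the one-parameter group `l`. -/
def cirHom (l : (Fin r → ℤ) →+ ℤ) : ℕ × (Fin r → ℤ) →+ ℕ × (Fin 1 → ℤ) where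
  toFun i := (i.1, fun _ => l i.2)
  map_zero' := by
    rw [Prod.fst_zero, Prod.snd_zero, map_zero]
    rfl
  map_add' i j := by
    rw [Prod.fst_add, Prod.snd_add, map_add]
    rfl

omit [GradedAlgebra ℬ] in
theorem cirHom_apply (l : (Fin r → ℤ) →+ ℤ) (d : ℕ) (m : Fin r → ℤ) :
    cirHom l (d, m) = (d, fun _ => l m) := rfl

/-- A torus with isolated fixed points has a one-parameter group with isolated fixed points. -/
theorem circle_of_torus (hX : T.IsTorusManifold ℬ) (hr : ∀ d, 𝒜 d = ⨆ m : Fin r → ℤ, ℬ (d, m))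
    (hiso : ∀ x ν, ¬ T.IsVertex ℬ x → T.IsFixed ℬ x ν → ¬ T.TangentWeight ℬ x ν 0) :
    HasIsolatedTorus 𝒜 1 := by
  obtain ⟨l, hl⟩ := H587.exists_generic (T.finite_weights hX)
  have hr' : ∀ d, 𝒜 d = ⨆ m : Fin 1 → ℤ, T.coarse ℬ (cirHom l) (d, m) := by
    intro d
    rw [hr d]
    apply le_antisymm
    · refine iSup_le fun m => ?_
      refine le_trans ?_ (le_iSup (fun m' : Fin 1 → ℤ => T.coarse ℬ (cirHom l) (d, m'))
        (fun _ => l m))
      exact T.le_coarse ℬ (cirHom l) (d, m)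
    · refine iSup_le fun m' => ?_
      intro h hh
      refine T.coarse_induction (P := fun h => h ∈ ⨆ m : Fin r → ℤ, ℬ (d, m)) ?_ ?_ ?_ hh
      · exact Submodule.zero_mem _
      · exact fun a b ha hb => Submodule.add_mem _ ha hb
      · rintro ⟨d', m⟩ hi a ha
        rw [cirHom_apply, Prod.mk.injEq] at hi
        rw [← hi.1]
        exact (le_iSup (fun m => ℬ (d', m)) m) ha
  refine ⟨T.coarse ℬ (cirHom l), inferInstance, hr', fun x ν' hx0 hx hw => ?_⟩
  have hx0' : ¬ T.IsVertex ℬ x := fun h =>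
    hx0 ((H63.ref_isVertex hr').2 ((H63.ref_isVertex hr).1 h))
  have hmem : ∀ {d : ℕ} {m : Fin r → ℤ} {h : R}, h ∈ ℬ (d, m) →
      h ∈ T.coarse ℬ (cirHom l) (d, fun _ => l m) := fun {d m h} hh =>
    T.le_coarse ℬ (cirHom l) (d, m) hh
  obtain ⟨ν, f, hf, hxf⟩ := (T.not_isVertex_iff hX.gen x).1 hx0'
  have hν : ν ∈ H587.wts ℬ := mem_wts hf (v := x.toLinearMap) hxf
  have hlν : l ν = ν' 0 := by
    have := hx 1 _ f (hmem hf) hxf
    rw [one_smul] at this
    rw [← this]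
  have hfix : T.IsFixed ℬ x ν := H587.isFixed_of_one hX fun m g hg hne => by
    have h1 := hx 1 _ g (hmem hg) hne
    rw [one_smul] at h1
    refine hl (mem_wts hg (v := x.toLinearMap) hne) hν ?_
    rw [hlν, ← h1]
  obtain ⟨v, hv, hvw, hvE⟩ := hw
  obtain ⟨k, hk⟩ := euler_of_one hX hfix (hiso x ν hx0' hfix) hv fun m hm h hh => by
    by_contra hne
    have h1 := hvw 1 _ h (hmem hh) hne
    rw [one_smul, add_zero] at h1
    exact hm (hl (mem_wts hh hne) hν (by rw [hlν, ← h1]))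
  obtain ⟨d, m', h, hh, hne⟩ := hvE k
  have hh' : h ∈ 𝒜 d := H63.ref_le hr' d m' hh
  have h2 : ∀ a ∈ 𝒜 d, v a = ((k * d) • x.toLinearMap) a := ref_lin hr fun m a ha => hk d m a ha
  exact hne (h2 h hh')

end

end Eq

end Vale.Agent.P280.H226
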