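import Vale.Agent.P280.S.Defs
import Vale.Agent.P280.T.Defs

/-!
P280, equivalent conditions: definitions. `R = ⊕_d R_d` is the section ring of a projectively
normal projective manifold `X`. A derivation of `R` of degree zero is a vector field on `(X, O(1))`,
an automorphism of the graded algebra `R` is an automorphism of `(X, O(1))`. The Euler vector at
the point `x` of the cone is `h ↦ d · x h` for `h` in `R_d`; the tangent space of `X` is the tangent
space of the cone modulo the Euler vector.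
-/

namespace Vale.Agent.P280.H226

variable {R : Type} [CommRing R] [Algebra ℂ R]

/-- A torus of dimension `r` acts on `X` with isolated fixed points: `ℬ (d, m)` is the part of
weight `m` of `R_d`, and `0` is no weight of the torus on the tangent space of `X` at any fixed
point. -/
def HasIsolatedTorus (𝒜 : ℕ → Submodule ℂ R) (r : ℕ) : Prop :=
  ∃ (ℬ : ℕ × (Fin r → ℤ) → Submodule ℂ R) (_ : GradedAlgebra ℬ),
    (∀ d, 𝒜 d = ⨆ m : Fin r → ℤ, ℬ (d, m)) ∧
      ∀ x ν, ¬ T.IsVertex ℬ x → T.IsFixed ℬ x ν → ¬ T.TangentWeight ℬ x ν 0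

/-- The zeros on `X` of the vector field `D` are nondegenerate: if `D` is `c` times the Euler
vector at the point `x` of the cone (so that `D` vanishes at the point of `X` below `x`), and the
linear part of `D` at this point sends the tangent vector `v` to a multiple of the Euler vector,
then `v` is a multiple of the Euler vector. -/
def HasNondegenerateZeros (𝒜 : ℕ → Submodule ℂ R) (D : Derivation ℂ R R) : Prop :=
  ∀ (x : R →ₐ[ℂ] ℂ) (c : ℂ), ¬ S.IsVertex 𝒜 x → (∀ d, ∀ h ∈ 𝒜 d, x (D h) = c * d * x h) →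
    ∀ v : R →ₗ[ℂ] ℂ, S.IsTangent x v →
      (∃ k : ℂ, ∀ d, ∀ h ∈ 𝒜 d, v (D h) = c * d * v h + k * d * x h) →
      ∃ k : ℂ, ∀ d, ∀ h ∈ 𝒜 d, v h = k * d * x h

/-- `X` has a vector field with nondegenerate zeros. -/
def HasNondegenerateField (𝒜 : ℕ → Submodule ℂ R) : Prop :=
  ∃ D : Derivation ℂ R R, (∀ d, ∀ h ∈ 𝒜 d, D h ∈ 𝒜 d) ∧ HasNondegenerateZeros 𝒜 D

/-- The periodic points of the automorphism `g` of `X` are nondegenerate: if the point of `X` below
`x` is fixed by `g ^ n`, `n > 0`, then `1` is no eigenvalue of the differential of `g ^ n` on the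
tangent space of `X` at this point. -/
def HasNondegeneratePeriodicPoints (𝒜 : ℕ → Submodule ℂ R) (g : R ≃ₐ[ℂ] R) : Prop :=
  ∀ n : ℕ, 0 < n → ∀ (x : R →ₐ[ℂ] ℂ) (c : ℂ), ¬ S.IsVertex 𝒜 x →
    (∀ d, ∀ h ∈ 𝒜 d, x ((⇑g)^[n] h) = c ^ d * x h) →
    ∀ v : R →ₗ[ℂ] ℂ, S.IsTangent x v →
      (∃ k : ℂ, ∀ d, ∀ h ∈ 𝒜 d, v ((⇑g)^[n] h) = c ^ d * (v h + k * d * x h)) →
      ∃ k : ℂ, ∀ d, ∀ h ∈ 𝒜 d, v h = k * d * x h

/-- `X` has an automorphism with nondegenerate periodic points. -/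
def HasNondegenerateAutomorphism (𝒜 : ℕ → Submodule ℂ R) : Prop :=
  ∃ g : R ≃ₐ[ℂ] R, (∀ d, ∀ h ∈ 𝒜 d, g h ∈ 𝒜 d) ∧ HasNondegeneratePeriodicPoints 𝒜 g

end Vale.Agent.P280.H226
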