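import Vale.Agent.P280.H226.EqAut
import Vale.Agent.P280.H226.EqCir
import Vale.Agent.P280.H641.Last

/-! P280, helper226: homogeneous manifolds, tori with isolated fixed points, vector fields with
nondegenerate zeros, automorphisms with nondegenerate periodic points. -/

open DirectSum

namespace Vale.Agent.P280.H226.Eq

open Vale.Agent.P280.N

section
variable {r : ℕ} {R : Type} [CommRing R] [Algebra ℂ R]
  {𝒜 : ℕ → Submodule ℂ R} {ℬ : ℕ × (Fin r → ℤ) → Submodule ℂ R}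

/-- Homogeneity does not depend on the torus. -/
theorem homog_to (hr : ∀ d, 𝒜 d = ⨆ m : Fin r → ℤ, ℬ (d, m)) (h : S.IsHomogeneousManifold 𝒜) :
    T.IsHomogeneousManifold ℬ := by
  intro p hp v hv
  obtain ⟨D, hD, hDv⟩ := h p (fun h1 => hp ((H63.ref_isVertex hr).2 h1)) v hv
  refine ⟨D, fun d m a ha => ?_, hDv⟩
  rw [← hr]
  exact hD d a (H63.ref_le hr d m ha)

theorem homog_from (hr : ∀ d, 𝒜 d = ⨆ m : Fin r → ℤ, ℬ (d, m)) (h : T.IsHomogeneousManifold ℬ) :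
    S.IsHomogeneousManifold 𝒜 := by
  intro p hp v hv
  obtain ⟨D, hD, hDv⟩ := h p (fun h1 => hp ((H63.ref_isVertex hr).1 h1)) v hv
  refine ⟨D, fun d a ha => ?_, hDv⟩
  have h1 : 𝒜 d ≤ (𝒜 d).comap (D : R →ₗ[ℂ] R) := H63.ref_sub hr fun m b hb => by
    rw [Submodule.mem_comap]
    have h2 := hD d m b hb
    rw [← hr] at h2
    exact h2
  exact h1 ha

theorem trans_from (hr : ∀ d, 𝒜 d = ⨆ m : Fin r → ℤ, ℬ (d, m)) (h : H127.IsTransitive ℬ) :
    S.IsTransitive 𝒜 := by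
  intro z z' hz hz'
  obtain ⟨F, hF, hFz⟩ := h z z' (fun h1 => hz ((H63.ref_isVertex hr).1 h1))
    (fun h1 => hz' ((H63.ref_isVertex hr).1 h1))
  refine ⟨F, fun d a ha => ?_, hFz⟩
  have h1 : 𝒜 d ≤ (𝒜 d).comap (F : R →ₐ[ℂ] R).toLinearMap := H63.ref_sub hr fun m b hb => by
    rw [Submodule.mem_comap]
    have h2 := hF d m b hb
    rw [← hr] at h2
    exact h2
  exact h1 ha

end

section
variable {R : Type} [CommRing R] [Algebra ℂ R] {𝒜 : ℕ → Submodule ℂ R} [GradedAlgebra 𝒜]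

/-- Some torus. -/
theorem exists_some (hX : S.IsProjectiveManifold 𝒜) :
    ∃ (r : ℕ) (ℬ : ℕ × (Fin r → ℤ) → Submodule ℂ R) (_ : GradedAlgebra ℬ),
      ∀ d, 𝒜 d = ⨆ m : Fin r → ℤ, ℬ (d, m) := by
  have h0 : ∀ d, ∀ h ∈ 𝒜 d, (0 : Derivation ℂ R R) h ∈ 𝒜 d := fun d h _ => by
    rw [Derivation.zero_apply]
    exact Submodule.zero_mem _
  obtain ⟨r, φ, hg, -, hr⟩ := exists_tor_field hX h0
  exact ⟨r, _, hg, hr⟩

/-- A homogeneous manifold has a torus with isolated fixed points. -/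
theorem torus_of_homog (hX : S.IsProjectiveManifold 𝒜) (hH : S.IsHomogeneousManifold 𝒜) :
    ∃ r, HasIsolatedTorus 𝒜 r := by
  obtain ⟨r, ℬ, hg, hr⟩ := exists_some hX
  have hX' : T.IsTorusManifold ℬ := H63.ref_isTorusManifold hr hX
  obtain ⟨r', 𝒜', hg', π, hr', ht⟩ := exists_maxTor hX'
  have hr2 : ∀ d, 𝒜 d = ⨆ m : Fin r' → ℤ, 𝒜' (d, m) := fun d =>
    (hr d).trans (ref_iSup hr' d)
  have hX2 : T.IsTorusManifold 𝒜' := ref_torusManifold hr' hX'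
  exact ⟨r', 𝒜', hg', hr2, fun x ν hx0 hx => iso_of_homog hX2 ht (homog_to hr2 hH) x ν hx0 hx⟩

omit [GradedAlgebra 𝒜] in
/-- A torus with isolated fixed points makes a manifold with nef tangent bundle homogeneous. -/
theorem homog_of_torus (hX : S.IsProjectiveManifold 𝒜) (hN : S.NefOnRationalCurves 𝒜)
    (h : ∃ r, HasIsolatedTorus 𝒜 r) : S.IsHomogeneousManifold 𝒜 ∧ S.IsTransitive 𝒜 := by
  obtain ⟨r, ℬ, hg, hr, hiso⟩ := h
  have h1 := (H641.t7 (H63.ref_isTorusManifold hr hX) (H63.ref_nef hr hN) hiso).1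
  exact ⟨homog_from hr h1.1, trans_from hr h1.2⟩

omit [GradedAlgebra 𝒜] in
/-- The tangent bundle of a homogeneous manifold is nef on rational curves. -/
theorem nef_of_homog (hH : S.IsHomogeneousManifold 𝒜) : S.NefOnRationalCurves 𝒜 := by
  intro e φ hφ a ha v hv
  obtain ⟨D, hD, hDv⟩ := hH (S.pt φ a) (hφ.2 a ha) v hv
  refine ⟨φ.toLinearMap.comp (D : R →ₗ[ℂ] R), fun x y => ?_, fun d h hh => hφ.1 d _ (hD d h hh),
    hDv⟩
  change φ (D (x * y)) = φ x * φ (D y) + φ y * φ (D x)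
  rw [Derivation.leibniz, map_add, smul_eq_mul, smul_eq_mul, map_mul, map_mul]

/-- **The equivalences.** -/
theorem equivalences (hX : S.IsProjectiveManifold 𝒜) :
    List.TFAE [S.IsHomogeneousManifold 𝒜,
      S.IsHomogeneousManifold 𝒜 ∧ S.IsTransitive 𝒜,
      S.NefOnRationalCurves 𝒜 ∧ ∃ r, HasIsolatedTorus 𝒜 r,
      S.NefOnRationalCurves 𝒜 ∧ HasIsolatedTorus 𝒜 1,
      S.NefOnRationalCurves 𝒜 ∧ HasNondegenerateField 𝒜,
      S.NefOnRationalCurves 𝒜 ∧ HasNondegenerateAutomorphism 𝒜] := by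
  tfae_have 2 → 1 := fun h => h.1
  tfae_have 1 → 3 := fun h => ⟨nef_of_homog h, torus_of_homog hX h⟩
  tfae_have 3 → 2 := fun h => homog_of_torus hX h.1 h.2
  tfae_have 3 → 4 := fun ⟨hN, r, ℬ, hg, hr, hiso⟩ =>
    ⟨hN, circle_of_torus (H63.ref_isTorusManifold hr hX) hr hiso⟩
  tfae_have 4 → 5 := fun ⟨hN, ℬ, hg, hr, hiso⟩ =>
    ⟨hN, field_of_torus (H63.ref_isTorusManifold hr hX) hr hiso⟩
  tfae_have 4 → 6 := fun ⟨hN, ℬ, hg, hr, hiso⟩ =>
    ⟨hN, aut_of_torus (H63.ref_isTorusManifold hr hX) hr hiso⟩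
  tfae_have 5 → 3 := fun h => ⟨h.1, torus_of_field hX h.2⟩
  tfae_have 6 → 3 := fun h => ⟨h.1, torus_of_aut hX h.2⟩
  tfae_finish

end

end Vale.Agent.P280.H226.Eq
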