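import Vale.Agent.P280.H226.EqNil
import Vale.Agent.P280.N.A04
import Mathlib.Algebra.Lie.Engel

/-! P280, helper226: the fixed points of a maximal torus on a homogeneous manifold are isolated. -/

open DirectSum Vale.Agent.P280.T Vale.Agent.P280.N

namespace Vale.Agent.P280.H226.Eq

section
variable {r : ℕ} {R : Type} [CommRing R] [Algebra ℂ R]

/-- Nilpotent vector fields of weight `0`. -/
def NilF (𝒜 : ℕ × (Fin r → ℤ) → Submodule ℂ R) (D : Derivation ℂ R R) : Prop :=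
  (∀ d m, ∀ h ∈ 𝒜 (d, m), D h ∈ 𝒜 (d, m)) ∧ ∀ h, ∃ n : ℕ, (⇑D)^[n] h = 0

/-- The restriction of a field of weight `0` to a piece of degree one. -/
def rs (𝒜 : ℕ × (Fin r → ℤ) → Submodule ℂ R) {D : Derivation ℂ R R}
    (hD : ∀ d m, ∀ h ∈ 𝒜 (d, m), D h ∈ 𝒜 (d, m)) (m : Fin r → ℤ) : Module.End ℂ (𝒜 (1, m)) :=
  (D : R →ₗ[ℂ] R).restrict fun x hx => hD 1 m x hx

variable {𝒜 : ℕ × (Fin r → ℤ) → Submodule ℂ R}

theorem rs_apply {D : Derivation ℂ R R} (hD : ∀ d m, ∀ h ∈ 𝒜 (d, m), D h ∈ 𝒜 (d, m))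
    (m : Fin r → ℤ) (x : 𝒜 (1, m)) : ((rs 𝒜 hD m x : 𝒜 (1, m)) : R) = D (x : R) := rfl

theorem iter_smul_sub (D : Derivation ℂ R R) (κ : ℂ) (n : ℕ) (h : R) :
    (((D : R →ₗ[ℂ] R) - κ • (1 : Module.End ℂ R)) ^ n) h =
      (fun x : R => D x - κ • x)^[n] h := by
  rw [Module.End.pow_apply]
  rfl

variable [GradedAlgebra 𝒜]

omit [GradedAlgebra 𝒜] in
theorem trace_sub (m : Fin r → ℤ) (A B : Module.End ℂ (𝒜 (1, m))) :
    LinearMap.trace ℂ (𝒜 (1, m)) (A - B) =
      LinearMap.trace ℂ (𝒜 (1, m)) A - LinearMap.trace ℂ (𝒜 (1, m)) B := by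
  have h : A - B + B = A := sub_add_cancel A B
  rw [eq_sub_iff_add_eq, ← map_add, h]

theorem fin_piece (hX : IsTorusManifold 𝒜) (m : Fin r → ℤ) : FiniteDimensional ℂ (𝒜 (1, m)) := by
  have := H939.finite_deg hX 1
  exact Submodule.finiteDimensional_of_le (le_iSup (fun m => 𝒜 (1, m)) m : _ ≤ H939.deg 𝒜 1)

/-- Nilpotent fields have trace zero. -/
theorem trace_nil (hX : IsTorusManifold 𝒜) {D : Derivation ℂ R R} (h : NilF 𝒜 D)
    (m : Fin r → ℤ) : LinearMap.trace ℂ (𝒜 (1, m)) (rs 𝒜 h.1 m) = 0 := by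
  have := fin_piece hX m
  refine (LinearMap.isNilpotent_trace_of_isNilpotent
    (Module.End.isNilpotent_iff_of_finite.2 fun x => ?_)).eq_zero
  obtain ⟨n, hn⟩ := h.2 (x : R)
  refine ⟨n, Subtype.ext ?_⟩
  have h1 : ∀ k : ℕ, ((((rs 𝒜 h.1 m) ^ k) x : 𝒜 (1, m)) : R) = (⇑D)^[k] (x : R) := by
    intro k
    induction k with
    | zero => rfl
    | succ k ih =>
      rw [pow_succ', Module.End.mul_apply, rs_apply, ih, Function.iterate_succ_apply']
  rw [h1, hn]
  rfl

/-- For a maximal torus, fields of weight `0` with trace zero are nilpotent. -/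
theorem nil_of_trace (hX : IsTorusManifold 𝒜) (ht : MaxTor 𝒜) {D : Derivation ℂ R R}
    (hD : ∀ d m, ∀ h ∈ 𝒜 (d, m), D h ∈ 𝒜 (d, m))
    (h0 : ∀ m, LinearMap.trace ℂ (𝒜 (1, m)) (rs 𝒜 hD m) = 0) :
    NilF 𝒜 D := by
  refine ⟨hD, ?_⟩
  obtain ⟨α, β, hdiag⟩ := ht D hD
  have h1 : ∀ m, 𝒜 (1, m) ≤ M1.Ev D 0 := by
    intro m
    have := fin_piece hX m
    by_cases hbot : 𝒜 (1, m) = ⊥
    · rw [hbot]
      exact bot_le
    have hnt : Nontrivial (𝒜 (1, m)) := Submodule.nontrivial_iff_ne_bot.2 hbot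
    set κ : ℂ := α + β m with hκ
    have hnil : IsNilpotent (rs 𝒜 hD m - κ • (1 : Module.End ℂ (𝒜 (1, m)))) := by
      refine Module.End.isNilpotent_iff_of_finite.2 fun x => ?_
      obtain ⟨n, hn⟩ := hdiag 1 m x x.2
      refine ⟨n, Subtype.ext ?_⟩
      have h2 : ∀ k : ℕ, ((((rs 𝒜 hD m - κ • (1 : Module.End ℂ (𝒜 (1, m)))) ^ k) x :
          𝒜 (1, m)) : R) = (fun y : R => D y - κ • y)^[k] (x : R) := by
        intro k
        induction k with
        | zero => rfl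
        | succ k ih =>
          rw [pow_succ', Module.End.mul_apply, Function.iterate_succ_apply', ← ih]
          rfl
      rw [h2]
      rw [Nat.cast_one, one_mul] at hn
      rw [hn]
      rfl
    have h3 := (LinearMap.isNilpotent_trace_of_isNilpotent hnil).eq_zero
    rw [trace_sub, h0 m, map_smul, LinearMap.trace_one, zero_sub, neg_eq_zero, smul_eq_mul] at h3
    have h4 : (Module.finrank ℂ (𝒜 (1, m)) : ℂ) ≠ 0 := by
      exact_mod_cast (Module.finrank_pos (R := ℂ) (M := 𝒜 (1, m))).ne'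
    have h5 : κ = 0 := (mul_eq_zero.1 h3).resolve_right h4
    intro x hx
    rw [M1.mem_Ev]
    obtain ⟨n, hn⟩ := hdiag 1 m x hx
    refine ⟨n, ?_⟩
    rw [iter_smul_sub, ← h5]
    rw [Nat.cast_one, one_mul] at hn
    exact hn
  intro h
  have h2 : h ∈ M1.Ev D 0 := by
    have hh : h ∈ Algebra.adjoin ℂ {h : R | ∃ m, h ∈ 𝒜 (1, m)} := by
      rw [hX.gen]
      trivial
    induction hh using Algebra.adjoin_induction with
    | mem x hx =>
      obtain ⟨m, hm⟩ := hx
      exact h1 m hm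
    | algebraMap c =>
      rw [Algebra.algebraMap_eq_smul_one]
      exact Submodule.smul_mem _ _ (M1.Ev_one D)
    | add x y _ _ hx hy => exact Submodule.add_mem _ hx hy
    | mul x y _ _ hx hy =>
      have := M1.Ev_mul hx hy
      rwa [add_zero] at this
  obtain ⟨n, hn⟩ := M1.mem_Ev.1 h2
  refine ⟨n, ?_⟩
  rw [iter_smul_sub] at hn
  simpa using hn

/-- For a maximal torus, the nilpotent fields of weight `0` are a Lie algebra. -/
noncomputable def nilLie (hX : IsTorusManifold 𝒜) (ht : MaxTor 𝒜) :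
    LieSubalgebra ℂ (Derivation ℂ R R) where
  carrier := {D | NilF 𝒜 D}
  add_mem' := by
    intro D D' h h'
    have hD : ∀ d m, ∀ x ∈ 𝒜 (d, m), (D + D') x ∈ 𝒜 (d, m) := fun d m x hx =>
      Submodule.add_mem _ (h.1 d m x hx) (h'.1 d m x hx)
    refine nil_of_trace hX ht hD fun m => ?_
    have h1 : rs 𝒜 hD m = rs 𝒜 h.1 m + rs 𝒜 h'.1 m := by
      ext x
      rfl
    rw [h1, map_add, trace_nil hX h, trace_nil hX h', add_zero]
  zero_mem' := ⟨fun d m x _ => by
    rw [Derivation.zero_apply]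
    exact Submodule.zero_mem _, fun h => ⟨1, rfl⟩⟩
  smul_mem' := by
    intro c D h
    have hD : ∀ d m, ∀ x ∈ 𝒜 (d, m), (c • D) x ∈ 𝒜 (d, m) := fun d m x hx =>
      Submodule.smul_mem _ _ (h.1 d m x hx)
    refine nil_of_trace hX ht hD fun m => ?_
    have h1 : rs 𝒜 hD m = c • rs 𝒜 h.1 m := by
      ext x
      rfl
    rw [h1, map_smul, trace_nil hX h, smul_zero]
  lie_mem' := by
    intro D D' h h'
    have hD : ∀ d m, ∀ x ∈ 𝒜 (d, m), ⁅D, D'⁆ x ∈ 𝒜 (d, m) := fun d m x hx => by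
      rw [Derivation.commutator_apply]
      exact Submodule.sub_mem _ (h.1 d m _ (h'.1 d m x hx)) (h'.1 d m _ (h.1 d m x hx))
    refine nil_of_trace hX ht hD fun m => ?_
    have h1 : rs 𝒜 hD m = rs 𝒜 h.1 m * rs 𝒜 h'.1 m - rs 𝒜 h'.1 m * rs 𝒜 h.1 m := by
      ext x
      change ⁅D, D'⁆ (x : R) = D (D' (x : R)) - D' (D (x : R))
      rw [Derivation.commutator_apply]
    rw [h1, trace_sub, LinearMap.trace_mul_comm, sub_self]

theorem mem_nilLie {hX : IsTorusManifold 𝒜} {ht : MaxTor 𝒜} {D : Derivation ℂ R R} :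
    D ∈ nilLie hX ht ↔ NilF 𝒜 D := Iff.rfl

omit [GradedAlgebra 𝒜] in
/-- Fields of weight `0` preserve degree one. -/
theorem deg_mem {D : Derivation ℂ R R} (hD : ∀ d m, ∀ h ∈ 𝒜 (d, m), D h ∈ 𝒜 (d, m)) :
    ∀ x ∈ H939.deg 𝒜 1, D x ∈ H939.deg 𝒜 1 := by
  intro x hx
  refine Submodule.iSup_induction _ (motive := fun x => D x ∈ H939.deg 𝒜 1) hx ?_ ?_ ?_
  · intro m x hx
    exact le_iSup (fun m => 𝒜 (1, m)) m (hD 1 m x hx)
  · rw [map_zero]
    exact Submodule.zero_mem _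
  · intro x y hx hy
    rw [map_add]
    exact Submodule.add_mem _ hx hy

omit [CommRing R] [Algebra ℂ R] in
theorem fin_of_inj {V N : Type} [AddCommGroup V] [Module ℂ V] (U : Submodule ℂ V)
    [FiniteDimensional ℂ U] [AddCommGroup N] [Module ℂ N] (f : N → U → U)
    (h1 : ∀ n x y, f n (x + y) = f n x + f n y) (h2 : ∀ n (c : ℂ) x, f n (c • x) = c • f n x)
    (h3 : ∀ n n' x, f (n + n') x = f n x + f n' x) (h4 : ∀ (c : ℂ) n x, f (c • n) x = c • f n x)
    (hf : Function.Injective f) : FiniteDimensional ℂ N := by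
  let g : N →ₗ[ℂ] (U →ₗ[ℂ] U) :=
    { toFun := fun n => { toFun := f n, map_add' := h1 n, map_smul' := h2 n }
      map_add' := fun n n' => LinearMap.ext fun x => h3 n n' x
      map_smul' := fun c n => LinearMap.ext fun x => h4 c n x }
  refine FiniteDimensional.of_injective g fun n n' h => hf (funext fun x => ?_)
  exact LinearMap.congr_fun h x

/-- The restriction of nilpotent fields to degree one, in the ring of endomorphisms. -/
noncomputable def rsE (hX : IsTorusManifold 𝒜) (ht : MaxTor 𝒜) (D : nilLie hX ht) :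
    Module.End ℂ (H939.deg 𝒜 1) :=
  ((D : Derivation ℂ R R) : R →ₗ[ℂ] R).restrict (deg_mem D.2.1)

theorem rsE_apply {hX : IsTorusManifold 𝒜} {ht : MaxTor 𝒜} (D : nilLie hX ht)
    (x : H939.deg 𝒜 1) : ((rsE hX ht D x : H939.deg 𝒜 1) : R) = (D : Derivation ℂ R R) (x : R) :=
  rfl

theorem rsE_inj {hX : IsTorusManifold 𝒜} {ht : MaxTor 𝒜} : Function.Injective (rsE hX ht) := by
  intro D D' hD
  apply Subtype.ext
  refine Derivation.ext_of_adjoin_eq_top _ hX.gen fun x hx => ?_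
  obtain ⟨m, hm⟩ := hx
  have h1 := congrArg (fun f : Module.End ℂ (H939.deg 𝒜 1) =>
    ((f ⟨x, le_iSup (fun m => 𝒜 (1, m)) m hm⟩ : H939.deg 𝒜 1) : R)) hD
  exact h1

theorem fin_nilLie (hX : IsTorusManifold 𝒜) (ht : MaxTor 𝒜) :
    FiniteDimensional ℂ (nilLie hX ht) := by
  have := H939.finite_deg hX 1
  refine fin_of_inj (H939.deg 𝒜 1) (fun (D : nilLie hX ht) x => rsE hX ht D x)
    (fun D x y => map_add _ _ _) (fun D c x => map_smul _ _ _) (fun D D' x => rfl)
    (fun c D x => rfl) fun D D' h => rsE_inj (LinearMap.ext fun x => congrFun h x)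

theorem rsE_nil {hX : IsTorusManifold 𝒜} {ht : MaxTor 𝒜} (D : nilLie hX ht) :
    IsNilpotent (rsE hX ht D) := by
  have := H939.finite_deg hX 1
  refine Module.End.isNilpotent_iff_of_finite.2 fun x => ?_
  obtain ⟨n, hn⟩ := D.2.2 (x : R)
  refine ⟨n, Subtype.ext ?_⟩
  have h1 : ∀ k : ℕ, ((((rsE hX ht D) ^ k) x : H939.deg 𝒜 1) : R) =
      (⇑(D : Derivation ℂ R R))^[k] (x : R) := by
    intro k
    induction k with
    | zero => rfl
    | succ k ih =>
      rw [pow_succ', Module.End.mul_apply, rsE_apply, ih, Function.iterate_succ_apply']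
  rw [h1, hn]
  rfl

omit [CommRing R] [Algebra ℂ R] in
/-- Elements represented by nilpotent endomorphisms are ad-nilpotent. -/
theorem ad_nil {L : Type} [LieRing L] [LieAlgebra ℂ L] {A : Type} [Ring A] [Algebra ℂ A]
    (f : L → A) (hf : Function.Injective f) (h0 : f 0 = 0)
    (hbr : ∀ D E, f ⁅D, E⁆ = f D * f E - f E * f D) {D : L} (hD : IsNilpotent (f D)) :
    IsNilpotent (LieAlgebra.ad ℂ L D) := by
  have hl : IsNilpotent (LinearMap.mulLeft ℂ (f D)) := by
    rwa [LinearMap.isNilpotent_mulLeft_iff]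
  have hr : IsNilpotent (LinearMap.mulRight ℂ (f D)) := by
    rwa [LinearMap.isNilpotent_mulRight_iff]
  have hc := @LinearMap.commute_mulLeft_right ℂ A _ _ _ _ _ (f D) (f D)
  obtain ⟨n, hn⟩ := hc.isNilpotent_sub hl hr
  refine ⟨n, ?_⟩
  have h1 : ∀ (j : ℕ) (E : L), f (((LieAlgebra.ad ℂ L D) ^ j) E) =
      ((LinearMap.mulLeft ℂ (f D) - LinearMap.mulRight ℂ (f D)) ^ j) (f E) := by
    intro j
    induction j with
    | zero => intro E; rfl
    | succ j ih =>
      intro E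
      rw [pow_succ', Module.End.mul_apply, pow_succ', Module.End.mul_apply, ← ih,
        LieAlgebra.ad_apply, hbr, LinearMap.sub_apply, LinearMap.mulLeft_apply,
        LinearMap.mulRight_apply]
  refine LinearMap.ext fun E => hf ?_
  rw [h1, hn, LinearMap.zero_apply, LinearMap.zero_apply, h0]

/-- The Lie algebra of nilpotent fields is nilpotent. -/
theorem nilLie_nilpotent (hX : IsTorusManifold 𝒜) (ht : MaxTor 𝒜) :
    LieRing.IsNilpotent (nilLie hX ht) := by
  have := fin_nilLie hX ht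
  refine (LieAlgebra.isNilpotent_iff_forall (R := ℂ)).2 fun D => ?_
  refine ad_nil (rsE hX ht) rsE_inj ?_ ?_ (rsE_nil D)
  · ext x
    rfl
  · intro D E
    ext x
    change ((⁅D, E⁆ : nilLie hX ht) : Derivation ℂ R R) (x : R) =
      (D : Derivation ℂ R R) ((E : Derivation ℂ R R) (x : R)) -
        (E : Derivation ℂ R R) ((D : Derivation ℂ R R) (x : R))
    rw [LieSubalgebra.coe_bracket, Derivation.commutator_apply]

/-- The derivation given by an affine function of degree and weight. -/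
theorem exists_affDer (α : ℂ) (β : (Fin r → ℤ) →+ ℂ) :
    ∃ Z : Derivation ℂ R R, ∀ d m, ∀ h ∈ 𝒜 (d, m), Z h = ((d : ℂ) * α + β m) • h := by
  obtain ⟨F, hF⟩ := H587.exists_linearMap 𝒜
    (fun i : ℕ × (Fin r → ℤ) => ((i.1 : ℂ) * α + β i.2) • (LinearMap.id : R →ₗ[ℂ] R))
  have hF' : ∀ d m, ∀ h ∈ 𝒜 (d, m), F h = ((d : ℂ) * α + β m) • h := fun d m h hh =>
    hF (d, m) h hh
  have hL : ∀ x y : R, F (x * y) = x • F y + y • F x := by
    intro a b
    let F1 : R →ₗ[ℂ] R →ₗ[ℂ] R := (LinearMap.mul ℂ R).compr₂ F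
    let G : R →ₗ[ℂ] R →ₗ[ℂ] R :=
      (LinearMap.mul ℂ R).compl₁₂ LinearMap.id F +
        ((LinearMap.mul ℂ R).compl₁₂ LinearMap.id F).flip
    have hFG : F1 a b = G a b := by
      refine H587.bilin_ext 𝒜 (F := F1) (G := G) ?_ a b
      rintro ⟨d, m⟩ ⟨d', m'⟩ x hx y hy
      change F (x * y) = x * F y + y * F x
      have hxy : x * y ∈ 𝒜 (d + d', m + m') := SetLike.mul_mem_graded hx hy
      rw [hF' _ _ _ hxy, hF' _ _ _ hx, hF' _ _ _ hy, mul_smul_comm, mul_smul_comm, mul_comm y x,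
        ← add_smul, map_add]
      congr 1
      push_cast
      ring
    exact hFG
  exact ⟨Derivation.mk' F hL, hF'⟩

omit [GradedAlgebra 𝒜] in
theorem iter_sub_mem {D Z : Derivation ℂ R R} (hD : ∀ d m, ∀ h ∈ 𝒜 (d, m), D h ∈ 𝒜 (d, m))
    {α : ℂ} {β : (Fin r → ℤ) →+ ℂ} (hZ : ∀ d m, ∀ h ∈ 𝒜 (d, m), Z h = ((d : ℂ) * α + β m) • h)
    {d : ℕ} {m : Fin r → ℤ} {h : R} (hh : h ∈ 𝒜 (d, m)) (n : ℕ) :
    (⇑(D - Z))^[n] h ∈ 𝒜 (d, m) ∧
      (⇑(D - Z))^[n] h = (fun x : R => D x - ((d : ℂ) * α + β m) • x)^[n] h := by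
  induction n with
  | zero => exact ⟨hh, rfl⟩
  | succ n ih =>
    obtain ⟨h1, h2⟩ := ih
    have h3 : (D - Z) ((⇑(D - Z))^[n] h) =
        D ((⇑(D - Z))^[n] h) - ((d : ℂ) * α + β m) • ((⇑(D - Z))^[n] h) := by
      rw [Derivation.sub_apply, hZ d m _ h1]
    rw [Function.iterate_succ_apply', Function.iterate_succ_apply']
    refine ⟨?_, ?_⟩
    · rw [h3]
      exact Submodule.sub_mem _ (hD d m _ h1) (Submodule.smul_mem _ _ h1)
    · rw [h3, h2]

/-- Subtracting the torus part gives a nilpotent field. -/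
theorem nil_of_diag {D Z : Derivation ℂ R R} (hD : ∀ d m, ∀ h ∈ 𝒜 (d, m), D h ∈ 𝒜 (d, m))
    {α : ℂ} {β : (Fin r → ℤ) →+ ℂ} (hZ : ∀ d m, ∀ h ∈ 𝒜 (d, m), Z h = ((d : ℂ) * α + β m) • h)
    (hdiag : Diag 𝒜 D α β) (h : R) : ∃ n : ℕ, (⇑(D - Z))^[n] h = 0 := by
  have hadd : ∀ (n : ℕ) (a b : R), (⇑(D - Z))^[n] (a + b) =
      (⇑(D - Z))^[n] a + (⇑(D - Z))^[n] b := fun n a b =>
    H939.iterate_map_add' ((D - Z : Derivation ℂ R R) : R →ₗ[ℂ] R) n a b
  induction h using DirectSum.Decomposition.inductionOn 𝒜 with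
  | zero => exact ⟨0, rfl⟩
  | @homogeneous i a =>
    obtain ⟨d, m⟩ := i
    obtain ⟨n, hn⟩ := hdiag d m a a.2
    exact ⟨n, by rw [(iter_sub_mem hD hZ a.2 n).2, hn]⟩
  | add a b ha hb =>
    obtain ⟨n, hn⟩ := ha
    obtain ⟨n', hn'⟩ := hb
    refine ⟨n + n', ?_⟩
    rw [hadd, H475.iterate_zero_of_le hn (Nat.le_add_right n n'),
      H475.iterate_zero_of_le hn' (Nat.le_add_left n' n), add_zero]

/-- The nilpotent fields which vanish at a point. -/
noncomputable def stab (hX : IsTorusManifold 𝒜) (ht : MaxTor 𝒜) (x : R →ₐ[ℂ] ℂ) :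
    Submodule ℂ (nilLie hX ht) where
  carrier := {D | ∀ h, x ((D : Derivation ℂ R R) h) = 0}
  add_mem' := by
    intro D D' h h' a
    change x ((D : Derivation ℂ R R) a + (D' : Derivation ℂ R R) a) = 0
    rw [map_add, h, h', add_zero]
  zero_mem' := by
    intro a
    change x 0 = 0
    rw [map_zero]
  smul_mem' := by
    intro c D h a
    change x (c • (D : Derivation ℂ R R) a) = 0
    rw [map_smul, h, smul_zero]

theorem mem_stab {hX : IsTorusManifold 𝒜} {ht : MaxTor 𝒜} {x : R →ₐ[ℂ] ℂ} {D : nilLie hX ht} :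
    D ∈ stab hX ht x ↔ ∀ h, x ((D : Derivation ℂ R R) h) = 0 := Iff.rfl

/-- A nilpotent field outside the stabiliser which normalises it. -/
theorem exists_norm (hX : IsTorusManifold 𝒜) (ht : MaxTor 𝒜) {x : R →ₐ[ℂ] ℂ}
    (h : stab hX ht x ≠ ⊤) :
    ∃ D : nilLie hX ht, D ∉ stab hX ht x ∧ ∀ E : nilLie hX ht, ⁅E, D⁆ ∈ stab hX ht x := by
  classical
  have hnil := nilLie_nilpotent hX ht
  obtain ⟨k, hk⟩ := (LieModule.isNilpotent_iff ℂ (nilLie hX ht) (nilLie hX ht)).1 hnil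
  have hex : ∃ j : ℕ, ∀ D ∈ LieModule.lowerCentralSeries ℂ (nilLie hX ht) (nilLie hX ht) j,
      D ∈ stab hX ht x := by
    refine ⟨k, fun D hD => ?_⟩
    rw [hk, LieSubmodule.mem_bot] at hD
    rw [hD]
    exact Submodule.zero_mem _
  have hspec := Nat.find_spec hex
  set j := Nat.find hex with hj
  have hj0 : j ≠ 0 := by
    intro h0
    apply h
    rw [eq_top_iff]
    intro D _
    refine hspec D ?_
    rw [h0, LieModule.lowerCentralSeries_zero]
    exact LieSubmodule.mem_top D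
  obtain ⟨i, hi⟩ := Nat.exists_eq_succ_of_ne_zero hj0
  have hmin := Nat.find_min hex (m := i) (by omega)
  push Not at hmin
  obtain ⟨D, hD, hDx⟩ := hmin
  refine ⟨D, hDx, fun E => hspec _ ?_⟩
  rw [hi, Nat.succ_eq_add_one, LieModule.lowerCentralSeries_succ]
  exact LieSubmodule.lie_mem_lie (LieSubmodule.mem_top E) hD

/-- On a homogeneous manifold the fixed points of a maximal torus are isolated. -/
theorem iso_of_homog (hX : IsTorusManifold 𝒜) (ht : MaxTor 𝒜) (hH : IsHomogeneousManifold 𝒜)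
    (x : R →ₐ[ℂ] ℂ) (ν : Fin r → ℤ) (hx0 : ¬ IsVertex 𝒜 x) (hx : IsFixed 𝒜 x ν) :
    ¬ TangentWeight 𝒜 x ν 0 := by
  have hfd := fin_nilLie hX ht
  induction hn : Module.finrank ℂ (nilLie hX ht) - Module.finrank ℂ (stab hX ht x)
    using Nat.strong_induction_on generalizing x with
  | _ n ih =>
  intro hT
  -- some nilpotent field moves `x`
  have hne : stab hX ht x ≠ ⊤ := by
    intro htop
    obtain ⟨v, hv, hw, hc⟩ := hT
    obtain ⟨D0, hD0, hDv0⟩ := hH x hx0 v hv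
    obtain ⟨D, hD, hDv⟩ := H93.exists_hfield hx hw D0 hD0 hDv0
    have hD' : ∀ d m, ∀ h ∈ 𝒜 (d, m), D h ∈ 𝒜 (d, m) := fun d m h hh => by
      have := hD d m h hh
      rwa [sub_zero] at this
    -- the trace of `D` on the pieces of degree one
    obtain ⟨α, β, hdiag⟩ := ht D hD'
    obtain ⟨Z, hZ⟩ := exists_affDer (𝒜 := 𝒜) α β
    have hN : NilF 𝒜 (D - Z) := by
      refine ⟨fun d m h hh => ?_, ?_⟩
      · rw [Derivation.sub_apply, hZ d m h hh]
        exact Submodule.sub_mem _ (hD' d m h hh) (Submodule.smul_mem _ _ hh)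
      · exact nil_of_diag hD' hZ hdiag
    obtain ⟨d, m, h, hh, hne⟩ := hc (α + β ν)
    apply hne
    have h1 : x ((D - Z) h) = 0 := by
      have : (⟨D - Z, hN⟩ : nilLie hX ht) ∈ stab hX ht x := by
        rw [htop]
        exact Submodule.mem_top
      exact this h
    rw [Derivation.sub_apply, map_sub, sub_eq_zero, hDv, hZ d m h hh, map_smul, smul_eq_mul] at h1
    rw [h1]
    by_cases hx1 : x h = 0
    · rw [hx1, mul_zero, mul_zero]
    · rw [hx d m h hh hx1, map_nsmul, nsmul_eq_mul]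
      ring
  obtain ⟨D, hDx, hDE⟩ := exists_norm hX ht hne
  obtain ⟨y, hy0, hy, hyD, hyE, hsame⟩ := lim_nil hX D.2.1 D.2.2 hx0 hx
  have hle : stab hX ht x ≤ stab hX ht y := by
    intro E hE
    refine mem_stab.2 (hyE E E.2.1 fun n => ?_)
    -- `x (D^n (E h)) = 0`
    have key : ∀ (n : ℕ) (E : nilLie hX ht), E ∈ stab hX ht x → ∀ h : R,
        x ((⇑(D : Derivation ℂ R R))^[n] ((E : Derivation ℂ R R) h)) = 0 := by
      intro n
      induction n with
      | zero => intro E hE h; exact hE h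
      | succ n ihn =>
        intro E hE h
        have h1 : (D : Derivation ℂ R R) ((E : Derivation ℂ R R) h) =
            (E : Derivation ℂ R R) ((D : Derivation ℂ R R) h) -
              ((⁅E, D⁆ : nilLie hX ht) : Derivation ℂ R R) h := by
          rw [LieSubalgebra.coe_bracket, Derivation.commutator_apply]
          ring
        rw [Function.iterate_succ_apply, h1]
        have h2 : ∀ a b : R, (⇑(D : Derivation ℂ R R))^[n] (a - b) =
            (⇑(D : Derivation ℂ R R))^[n] a - (⇑(D : Derivation ℂ R R))^[n] b := by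
          intro a b
          have := H939.iterate_map_add' ((D : Derivation ℂ R R) : R →ₗ[ℂ] R) n (a - b) b
          rw [sub_add_cancel] at this
          exact eq_sub_of_add_eq this.symm
        rw [h2, map_sub, ihn E hE, ihn _ (hDE E), sub_zero]
    exact key n E hE
  have hlt : stab hX ht x < stab hX ht y := by
    refine lt_of_le_of_ne hle fun heq => hDx ?_
    rw [heq]
    exact hyD
  have hlt' := Submodule.finrank_lt_finrank_of_lt hlt
  have hle' := Submodule.finrank_le (stab hX ht y)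
  have hTy : ¬ TangentWeight 𝒜 y ν 0 := ih _ (by omega) y hy0 hy rfl
  obtain ⟨c, hc, hxy⟩ := hsame hTy
  apply hDx
  rw [mem_stab]
  have h1 : x.toLinearMap.comp ((D : Derivation ℂ R R) : R →ₗ[ℂ] R) = 0 := by
    refine linearMap_ext_graded 𝒜 ?_
    rintro ⟨d, m⟩ h hh
    rw [LinearMap.comp_apply, LinearMap.zero_apply]
    change x ((D : Derivation ℂ R R) h) = 0
    rw [hxy d m _ (D.2.1 d m h hh), hyD, mul_zero]
  exact fun h => LinearMap.congr_fun h1 h

end

end Vale.Agent.P280.H226.Eq
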