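import Vale.Agent.P280.N.M1
import Vale.Agent.P280.S.Defs

/-! P280, helper226: the torus grading of a family of eigenspaces with torsion-free characters. -/

open DirectSum

namespace Vale.Agent.P280.H226.Eq

section
variable {R : Type} [CommRing R] [Algebra ℂ R] {𝒜 : ℕ → Submodule ℂ R} [GradedAlgebra 𝒜]
  {G : Type} [AddCommGroup G]

/-- The torus of a family of eigenspaces. -/
theorem exists_tor (E : G → Submodule ℂ R) (hind : iSupIndep E)
    (hmul : ∀ g g', ∀ a ∈ E g, ∀ b ∈ E g', a * b ∈ E (g + g')) (hone : (1 : R) ∈ E 0)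
    (hgen : Algebra.adjoin ℂ {h : R | h ∈ 𝒜 1} = ⊤) {S : Set G} (hS : S.Finite)
    (h1 : 𝒜 1 ≤ ⨆ g : S, 𝒜 1 ⊓ E g)
    (hfree : ∀ g ∈ Submodule.span ℤ S, ∀ n : ℤ, n ≠ 0 → n • g = 0 → g = 0) :
    ∃ (r : ℕ) (φ : (Fin r → ℤ) →+ G)
      (_ : GradedAlgebra fun q : ℕ × (Fin r → ℤ) => 𝒜 q.1 ⊓ E (φ q.2)),
      Function.Injective φ ∧ ∀ d, 𝒜 d = ⨆ m : Fin r → ℤ, 𝒜 d ⊓ E (φ m) := by
  classical
  set Λ : Submodule ℤ G := Submodule.span ℤ S with hΛ
  have hfin : Module.Finite ℤ Λ := Module.Finite.span_of_finite ℤ hS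
  have htf : Module.IsTorsionFree ℤ Λ := by
    refine Module.isTorsionFree_iff_smul_eq_zero.2 ?_
    intro n g h
    by_contra hcon
    push Not at hcon
    refine hcon.2 (Subtype.ext (hfree g g.2 n hcon.1 ?_))
    exact congrArg Subtype.val h
  have hfr : Module.Free ℤ Λ := inferInstance
  set b := Module.finBasis ℤ Λ with hb
  set k := Module.finrank ℤ Λ with hk
  let φ : (Fin k → ℤ) →+ G :=
    { toFun := fun m => ((b.equivFun.symm m : Λ) : G)
      map_zero' := by
        rw [map_zero]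
        rfl
      map_add' := fun x y => by
        rw [map_add]
        rfl }
  have hφinj : Function.Injective φ := fun x y h => b.equivFun.symm.injective (Subtype.ext h)
  have hφsurj : ∀ κ : Λ, ∃ m, φ m = κ := fun κ => ⟨b.equivFun κ, by
    change ((b.equivFun.symm (b.equivFun κ) : Λ) : G) = κ
    rw [LinearEquiv.symm_apply_apply]⟩
  -- everything is a sum of eigenvectors
  set T : Submodule ℂ R := ⨆ q : ℕ × (Fin k → ℤ), 𝒜 q.1 ⊓ E (φ q.2) with hT
  have hTm : ∀ a b, a ∈ T → b ∈ T → a * b ∈ T := by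
    intro a b ha hb
    refine Submodule.iSup_induction _ (motive := fun a => a * b ∈ T) ha ?_ ?_ ?_
    · intro q a ha
      refine Submodule.iSup_induction _ (motive := fun b => a * b ∈ T) hb ?_ ?_ ?_
      · intro q' b hb
        refine Submodule.mem_iSup_of_mem (q + q') ⟨?_, ?_⟩
        · exact SetLike.mul_mem_graded ha.1 hb.1
        · have := hmul _ _ a ha.2 b hb.2
          rw [← map_add] at this
          exact this
      · rw [mul_zero]
        exact T.zero_mem
      · intro b b' hb hb'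
        rw [mul_add]
        exact T.add_mem hb hb'
    · rw [zero_mul]
      exact T.zero_mem
    · intro a a' ha ha'
      rw [add_mul]
      exact T.add_mem ha ha'
  have hT1 : (1 : R) ∈ T := by
    refine Submodule.mem_iSup_of_mem 0 ⟨SetLike.one_mem_graded 𝒜, ?_⟩
    change (1 : R) ∈ E (φ 0)
    rw [map_zero]
    exact hone
  have hTt : T = ⊤ := by
    have : Algebra.adjoin ℂ {h : R | h ∈ 𝒜 1} ≤ T.toSubalgebra hT1 hTm := by
      rw [Algebra.adjoin_le_iff]
      intro h hh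
      refine (iSup_le fun g => ?_ : (⨆ g : S, 𝒜 1 ⊓ E g) ≤ T) (h1 hh)
      obtain ⟨m, hm⟩ := hφsurj ⟨g, Submodule.subset_span g.2⟩
      have h2 : 𝒜 1 ⊓ E (g : G) = 𝒜 (1, m).1 ⊓ E (φ (1, m).2) := by
        change 𝒜 1 ⊓ E (g : G) = 𝒜 1 ⊓ E (φ m)
        rw [hm]
      rw [h2]
      exact le_iSup (fun q : ℕ × (Fin k → ℤ) => 𝒜 q.1 ⊓ E (φ q.2)) (1, m)
    rw [hgen] at this
    rw [eq_top_iff]
    intro x _
    exact this (Algebra.mem_top (x := x))
  have hinj : Function.Injective fun q : ℕ × (Fin k → ℤ) => (q.1, φ q.2) := by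
    rintro ⟨d, x⟩ ⟨d', y⟩ h
    simp only [Prod.mk.injEq] at h
    obtain ⟨rfl, hp⟩ := h
    rw [hφinj hp]
  have hind' : iSupIndep fun q : ℕ × (Fin k → ℤ) => 𝒜 q.1 ⊓ E (φ q.2) :=
    (N.M1.indep_inf (DirectSum.Decomposition.isInternal 𝒜).submodule_iSupIndep hind).comp hinj
  have hint : DirectSum.IsInternal fun q : ℕ × (Fin k → ℤ) => 𝒜 q.1 ⊓ E (φ q.2) :=
    DirectSum.isInternal_submodule_of_iSupIndep_of_iSup_eq_top hind' hTt
  let inst : GradedAlgebra fun q : ℕ × (Fin k → ℤ) => 𝒜 q.1 ⊓ E (φ q.2) :=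
    { hint.chooseDecomposition _ with
      one_mem := by
        refine ⟨SetLike.one_mem_graded 𝒜, ?_⟩
        change (1 : R) ∈ E (φ 0)
        rw [map_zero]
        exact hone
      mul_mem := fun i j a b' ha hb' => by
        refine ⟨SetLike.mul_mem_graded ha.1 hb'.1, ?_⟩
        have := hmul _ _ a ha.2 b' hb'.2
        rw [← map_add] at this
        exact this }
  refine ⟨k, φ, inst, hφinj, fun d => le_antisymm ?_ (iSup_le fun m => inf_le_left)⟩
  have hproj : ∀ x ∈ T, (DirectSum.decompose 𝒜 x d : R) ∈ ⨆ m : Fin k → ℤ, 𝒜 d ⊓ E (φ m) := by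
    intro x hx
    refine Submodule.iSup_induction _
      (motive := fun x => (DirectSum.decompose 𝒜 x d : R) ∈ ⨆ m : Fin k → ℤ, 𝒜 d ⊓ E (φ m))
      hx ?_ ?_ ?_
    · intro q x hx
      by_cases hq : q.1 = d
      · subst hq
        rw [DirectSum.decompose_of_mem_same 𝒜 hx.1]
        exact Submodule.mem_iSup_of_mem q.2 hx
      · rw [DirectSum.decompose_of_mem_ne 𝒜 hx.1 hq]
        exact Submodule.zero_mem _
    · rw [DirectSum.decompose_zero]
      exact Submodule.zero_mem _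
    · intro x y hx hy
      rw [DirectSum.decompose_add, DirectSum.add_apply, Submodule.coe_add]
      exact Submodule.add_mem _ hx hy
  intro h hh
  have := hproj h (hTt ▸ Submodule.mem_top)
  rwa [DirectSum.decompose_of_mem_same 𝒜 hh] at this

end

end Vale.Agent.P280.H226.Eq
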