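import Vale.Agent.P280.H226.EqDefs
import Vale.Agent.P280.H226.EqHom
import Vale.Agent.P280.H226.EqTor
import Vale.Agent.P280.R2.H63.AutR

/-! P280, helper226: vector fields with nondegenerate zeros and tori with isolated fixed points. -/

open DirectSum

namespace Vale.Agent.P280.H226

namespace Eq

open Vale.Agent.P280.N

section
variable {r : ℕ} {R : Type} [CommRing R] [Algebra ℂ R]
  {𝒜 : ℕ → Submodule ℂ R} {ℬ : ℕ × (Fin r → ℤ) → Submodule ℂ R}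

/-- Linear identities on `R_d` from those on its pieces. -/
theorem ref_lin (hr : ∀ d, 𝒜 d = ⨆ m : Fin r → ℤ, ℬ (d, m)) {d : ℕ} {F G : R →ₗ[ℂ] ℂ}
    (h : ∀ m, ∀ a ∈ ℬ (d, m), F a = G a) : ∀ a ∈ 𝒜 d, F a = G a := by
  intro a ha
  have h1 : 𝒜 d ≤ LinearMap.ker (F - G) := H63.ref_sub hr fun m b hb => by
    rw [LinearMap.mem_ker, LinearMap.sub_apply, h m b hb, sub_self]
  have h2 := h1 ha
  rw [LinearMap.mem_ker, LinearMap.sub_apply, sub_eq_zero] at h2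
  exact h2

variable [GradedAlgebra ℬ]

/-- The vector field `D` on `X` whose semisimple part is given by the weights of the torus has
nondegenerate zeros only if the fixed points of the torus are isolated. -/
theorem iso_of_field (hX : T.IsTorusManifold ℬ) (hr : ∀ d, 𝒜 d = ⨆ m : Fin r → ℤ, ℬ (d, m))
    {D : Derivation ℂ R R} (hD : ∀ d m, ∀ h ∈ ℬ (d, m), D h ∈ ℬ (d, m))
    {φ : (Fin r → ℤ) →+ ℂ} (hdiag : Diag ℬ D 0 φ) (hnd : HasNondegenerateZeros 𝒜 D)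
    (x : R →ₐ[ℂ] ℂ) (ν : Fin r → ℤ) (hx0 : ¬ T.IsVertex ℬ x) (hx : T.IsFixed ℬ x ν) :
    ¬ T.TangentWeight ℬ x ν 0 := by
  intro hT
  obtain ⟨Z, hZ⟩ := exists_affDer (𝒜 := ℬ) 0 φ
  have hN : ∀ d m, ∀ h ∈ ℬ (d, m), (D - Z) h ∈ ℬ (d, m) := by
    intro d m h hh
    rw [Derivation.sub_apply, hZ d m h hh]
    exact Submodule.sub_mem _ (hD d m h hh) (Submodule.smul_mem _ _ hh)
  have hn := nil_of_diag hD hZ hdiag
  obtain ⟨y, hy0, hy, hyN, -, hsame⟩ := lim_nil hX hN hn hx0 hx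
  have hTy : T.TangentWeight ℬ y ν 0 := by
    by_contra hno
    exact hno (A04.same_tw (A04.samePoint_symm (hsame hno)) hT)
  obtain ⟨v, hv, hw, hne, k, hk⟩ := exists_eigvec hX (T := ((D - Z : Derivation ℂ R R) : R →ₗ[ℂ] R))
    hN (fun h => by
      obtain ⟨n, hn⟩ := hn h
      exact ⟨n, by rw [Module.End.pow_apply]; exact hn⟩) (fun v hv a b => by
      change v ((D - Z) (a * b)) = y a * v ((D - Z) b) + y b * v ((D - Z) a)
      rw [Derivation.leibniz, map_add, smul_eq_mul, smul_eq_mul, hv, hv, hyN, hyN]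
      ring) hTy
  obtain ⟨k', hk'⟩ := hnd y (φ ν) (fun h => hy0 ((H63.ref_isVertex hr).2 h)) (by
      intro d
      refine ref_lin hr (F := y.toLinearMap.comp (D : R →ₗ[ℂ] R))
        (G := (φ ν * d) • y.toLinearMap) fun m a ha => ?_
      change y (D a) = φ ν * d * y a
      have h1 : y (D a) = φ m * y a := by
        have h2 := hyN a
        rw [Derivation.sub_apply, hZ d m a ha, map_sub, map_smul, sub_eq_zero] at h2
        rw [h2, smul_eq_mul]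
        ring
      rw [h1]
      by_cases hya : y a = 0
      · rw [hya, mul_zero, mul_zero]
      · rw [hy d m a ha hya, map_nsmul, nsmul_eq_mul]
        ring) v hv ⟨k, by
      intro d
      refine ref_lin hr (F := v.comp (D : R →ₗ[ℂ] R))
        (G := (φ ν * d) • v + (k * d) • y.toLinearMap) fun m a ha => ?_
      change v (D a) = φ ν * d * v a + k * d * y a
      have h1 : v (D a) = k * d * y a + φ m * v a := by
        have h2 := hk d m a ha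
        change v ((D - Z) a) = k * d * y a at h2
        rw [Derivation.sub_apply, hZ d m a ha, map_sub, map_smul, smul_eq_mul] at h2
        linear_combination h2
      rw [h1]
      by_cases hva : v a = 0
      · rw [hva]
        ring
      · have h3 := hw d m a ha hva
        rw [add_zero] at h3
        rw [h3, map_nsmul, nsmul_eq_mul]
        ring⟩
  obtain ⟨d, m, h, hh, hne'⟩ := hne k'
  exact hne' (hk' d h (H63.ref_le hr d m hh))

end

section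
variable {R : Type} [CommRing R] [Algebra ℂ R] {𝒜 : ℕ → Submodule ℂ R} [GradedAlgebra 𝒜]

/-- The torus of a vector field. -/
theorem exists_tor_field (hX : S.IsProjectiveManifold 𝒜) {D : Derivation ℂ R R}
    (hD : ∀ d, ∀ h ∈ 𝒜 d, D h ∈ 𝒜 d) :
    ∃ (r : ℕ) (φ : (Fin r → ℤ) →+ ℂ)
      (_ : GradedAlgebra fun q : ℕ × (Fin r → ℤ) => 𝒜 q.1 ⊓ M1.Ev D (φ q.2)),
      Function.Injective φ ∧ ∀ d, 𝒜 d = ⨆ m : Fin r → ℤ, 𝒜 d ⊓ M1.Ev D (φ m) := by
  have hfin : FiniteDimensional ℂ (𝒜 1) := Module.Finite.iff_fg.2 (R2.H730.fin_one hX)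
  have hS := M1.Ev_fin (D := D) (hD 1)
  have h1 : 𝒜 1 ≤ ⨆ g : {κ | 𝒜 1 ⊓ M1.Ev D κ ≠ ⊥}, 𝒜 1 ⊓ M1.Ev D (g : ℂ) := by
    refine (M1.Ev_top (D := D) (hD 1)).trans (iSup_le fun κ => ?_)
    by_cases hκ : κ ∈ {κ | 𝒜 1 ⊓ M1.Ev D κ ≠ ⊥}
    · exact le_iSup (fun g : {κ | 𝒜 1 ⊓ M1.Ev D κ ≠ ⊥} => 𝒜 1 ⊓ M1.Ev D (g : ℂ)) ⟨κ, hκ⟩
    · have h0 : 𝒜 1 ⊓ M1.Ev D κ = ⊥ := by
        by_contra h1
        exact hκ h1
      rw [h0]
      exact bot_le
  have h2 : ∀ g ∈ Submodule.span ℤ {κ | 𝒜 1 ⊓ M1.Ev D κ ≠ ⊥}, ∀ n : ℤ, n ≠ 0 → n • g = 0 →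
      g = 0 := by
    intro g _ n hn h0
    rw [zsmul_eq_mul] at h0
    exact (mul_eq_zero.1 h0).resolve_left (by exact_mod_cast hn)
  exact exists_tor (𝒜 := 𝒜) (M1.Ev D) (M1.Ev_indep D)
    (fun g g' a ha b hb => M1.Ev_mul ha hb) (M1.Ev_one D) hX.gen hS h1 h2

/-- A vector field with nondegenerate zeros gives a torus with isolated fixed points. -/
theorem torus_of_field (hX : S.IsProjectiveManifold 𝒜) (h : HasNondegenerateField 𝒜) :
    ∃ r, HasIsolatedTorus 𝒜 r := by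
  obtain ⟨D, hD, hnd⟩ := h
  obtain ⟨r, φ, hg, -, hr⟩ := exists_tor_field hX hD
  have hX' : T.IsTorusManifold (fun q : ℕ × (Fin r → ℤ) => 𝒜 q.1 ⊓ M1.Ev D (φ q.2)) :=
    H63.ref_isTorusManifold hr hX
  refine ⟨r, fun q : ℕ × (Fin r → ℤ) => 𝒜 q.1 ⊓ M1.Ev D (φ q.2), hg, hr, ?_⟩
  have h1 : ∀ d m, ∀ h ∈ 𝒜 d ⊓ M1.Ev D (φ m), D h ∈ 𝒜 d ⊓ M1.Ev D (φ m) := by
    rintro d m h ⟨h1, h2⟩
    refine ⟨hD d h h1, ?_⟩
    exact Module.End.mapsTo_maxGenEigenspace_of_comm (Commute.refl _) _ h2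
  have h2 : Diag (fun q : ℕ × (Fin r → ℤ) => 𝒜 q.1 ⊓ M1.Ev D (φ q.2)) D 0 φ := by
    rintro d m h ⟨-, h2⟩
    obtain ⟨n, hn⟩ := M1.Ev_iter h2
    refine ⟨n, ?_⟩
    rw [mul_zero, zero_add]
    exact hn
  exact iso_of_field hX' hr h1 h2 hnd

end

end Eq

end Vale.Agent.P280.H226
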