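import Vale.Agent.P280.T.Tools2

/-! P280, helper226: limits of fixed points of a torus along a polynomial curve of fixed points. -/

open DirectSum Vale.Agent.P280.T

namespace Vale.Agent.P280.H226.Eq

section
variable {M : Type} [AddCommGroup M] [DecidableEq M] {R : Type} [CommRing R] [Algebra ℂ R]
  {𝒜 : ℕ × M → Submodule ℂ R} [GradedAlgebra 𝒜]

/-- Rescaling a homomorphism. -/
theorem exists_scale {B : Type} [CommRing B] [Algebra ℂ B] (ρ : R →ₐ[ℂ] B) (w : B) :
    ∃ θ : R →ₐ[ℂ] B, ∀ d m, ∀ h ∈ 𝒜 (d, m), θ h = w ^ d * ρ h := by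
  obtain ⟨θ, hθ⟩ := exists_algHom 𝒜
    (fun i : ℕ × M => (LinearMap.mulLeft ℂ (w ^ i.1)).comp ρ.toLinearMap) (by simp)
    (by
      rintro ⟨d, m⟩ ⟨d', m'⟩ a ha b hb
      simp only [Prod.mk_add_mk, LinearMap.comp_apply, LinearMap.mulLeft_apply,
        AlgHom.toLinearMap_apply, map_mul, pow_add]
      ring)
  exact ⟨θ, fun d m h hh => hθ (d, m) h hh⟩

/-- A formal curve of fixed points through a fixed point without tangent weight `0` is
constant. -/
theorem isolated (hgen : Algebra.adjoin ℂ {h : R | ∃ m : M, h ∈ 𝒜 (1, m)} = ⊤)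
    {y : R →ₐ[ℂ] ℂ} {ν : M} (hy0 : ¬ IsVertex 𝒜 y) (hy : IsFixed 𝒜 y ν)
    (h0 : ¬ TangentWeight 𝒜 y ν 0) (ρ : R →ₐ[ℂ] PowerSeries ℂ)
    (hρ : ∀ d m, ∀ h ∈ 𝒜 (d, m), ρ h ≠ 0 → m = d • ν)
    (hρ0 : ∀ h, PowerSeries.coeff 0 (ρ h) = y h) :
    ∃ f ∈ 𝒜 (1, ν), y f = 1 ∧
      ∀ d m, ∀ h ∈ 𝒜 (d, m), ρ h = ρ f ^ d * PowerSeries.C (y h) := by
  obtain ⟨f0, hf0, hyf0⟩ := exists_deg_one_ne hgen hy0 hy
  refine ⟨(y f0)⁻¹ • f0, Submodule.smul_mem _ _ hf0, by
    rw [map_smul, smul_eq_mul, inv_mul_cancel₀ hyf0], ?_⟩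
  set f := (y f0)⁻¹ • f0 with hf
  have hfm : f ∈ 𝒜 (1, ν) := Submodule.smul_mem _ _ hf0
  have hyf : y f = 1 := by rw [hf, map_smul, smul_eq_mul, inv_mul_cancel₀ hyf0]
  set u := ρ f with hu
  have hu0 : PowerSeries.constantCoeff u ≠ 0 := by
    rw [← PowerSeries.coeff_zero_eq_constantCoeff_apply, hu, hρ0, hyf]
    exact one_ne_zero
  have huw : u⁻¹ * u = 1 := PowerSeries.inv_mul_cancel u hu0
  have hcw : PowerSeries.coeff 0 (u⁻¹) = 1 := by
    rw [PowerSeries.coeff_zero_eq_constantCoeff_apply, PowerSeries.constantCoeff_inv,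
      ← PowerSeries.coeff_zero_eq_constantCoeff_apply, hu, hρ0, hyf, inv_one]
  obtain ⟨θ, hθ⟩ := exists_scale (𝒜 := 𝒜) ρ u⁻¹
  have hθ0 : ∀ h, PowerSeries.coeff 0 (θ h) = y h := by
    have h1 : (PowerSeries.coeff 0 : PowerSeries ℂ →ₗ[ℂ] ℂ).comp θ.toLinearMap = y.toLinearMap := by
      refine linearMap_ext_graded 𝒜 ?_
      rintro ⟨d, m⟩ h hh
      rw [LinearMap.comp_apply, AlgHom.toLinearMap_apply, AlgHom.toLinearMap_apply, hθ d m h hh,
        PowerSeries.coeff_zero_eq_constantCoeff_apply, map_mul, map_pow,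
        ← PowerSeries.coeff_zero_eq_constantCoeff_apply,
        ← PowerSeries.coeff_zero_eq_constantCoeff_apply, hcw, hρ0, one_pow, one_mul]
    exact fun h => LinearMap.congr_fun h1 h
  have hkey : ∀ h, θ h = PowerSeries.C (y h) := by
    by_contra hcon
    have hex : ∃ k : ℕ, ∃ h, PowerSeries.coeff k (θ h) ≠
        PowerSeries.coeff k (PowerSeries.C (y h)) := by
      by_contra hcon'
      push Not at hcon'
      exact hcon fun h => PowerSeries.ext fun n => hcon' n h
    classical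
    set k := Nat.find hex with hk
    obtain ⟨h1, hh1⟩ := Nat.find_spec hex
    have hmin : ∀ j < k, ∀ h, PowerSeries.coeff j (θ h) =
        PowerSeries.coeff j (PowerSeries.C (y h)) := by
      intro j hj h
      by_contra hne
      exact Nat.find_min hex hj ⟨h, hne⟩
    have hk0 : k ≠ 0 := by
      intro hk0
      apply hh1
      rw [← hk, hk0, hθ0, PowerSeries.coeff_zero_C]
    have hC : ∀ (c : ℂ) (j : ℕ), j ≠ 0 → PowerSeries.coeff j (PowerSeries.C c) = 0 := by
      intro c j hj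
      rw [PowerSeries.coeff_C, if_neg hj]
    apply h0
    refine ⟨(PowerSeries.coeff k : PowerSeries ℂ →ₗ[ℂ] ℂ).comp θ.toLinearMap, ?_, ?_, ?_⟩
    · intro a b
      change PowerSeries.coeff k (θ (a * b)) = y a * PowerSeries.coeff k (θ b) +
        y b * PowerSeries.coeff k (θ a)
      rw [map_mul, PowerSeries.coeff_mul, Finset.Nat.sum_antidiagonal_eq_sum_range_succ
        (fun i j => PowerSeries.coeff i (θ a) * PowerSeries.coeff j (θ b)),
        Finset.sum_range_succ, Finset.sum_eq_single_of_mem 0 (by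
          rw [Finset.mem_range]; omega)]
      · rw [Nat.sub_self, Nat.sub_zero, hθ0, hθ0]
        ring
      · intro j hj hj0
        rw [Finset.mem_range] at hj
        rw [hmin j hj, hC _ j hj0, zero_mul]
    · intro d m h hh hne
      rw [add_zero]
      refine hρ d m h hh fun h2 => hne ?_
      change PowerSeries.coeff k (θ h) = 0
      rw [hθ d m h hh, h2, mul_zero, map_zero]
    · intro c
      by_contra hcon2
      push Not at hcon2
      have h2 := hcon2 1 ν f hfm
      change PowerSeries.coeff k (θ f) = _ at h2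
      rw [hθ 1 ν f hfm, pow_one, ← hu, huw, hyf, PowerSeries.coeff_one, if_neg hk0,
        Nat.cast_one, mul_one, mul_one] at h2
      have h3 : (PowerSeries.coeff k : PowerSeries ℂ →ₗ[ℂ] ℂ).comp θ.toLinearMap = 0 := by
        refine linearMap_ext_graded 𝒜 ?_
        rintro ⟨d, m⟩ h hh
        rw [hcon2 d m h hh, ← h2, zero_mul, zero_mul, LinearMap.zero_apply]
      apply hh1
      rw [← hk, hC _ k hk0]
      exact LinearMap.congr_fun h3 h1
  intro d m h hh
  rw [← hkey h, hθ d m h hh, ← mul_assoc, ← mul_pow, mul_comm (ρ f), ← hu, huw, one_pow, one_mul]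

end

section
variable {M : Type} [AddCommGroup M] [DecidableEq M] {R : Type} [CommRing R] [Algebra ℂ R]
  {𝒜 : ℕ × M → Submodule ℂ R} [GradedAlgebra 𝒜]

open Polynomial in
/-- The limit of a polynomial curve of fixed points. -/
theorem lim_of_flow (hgen : Algebra.adjoin ℂ {h : R | ∃ m : M, h ∈ 𝒜 (1, m)} = ⊤)
    {x : R →ₐ[ℂ] ℂ} {ν : M} (hx0 : ¬ IsVertex 𝒜 x) (hx : IsFixed 𝒜 x ν) (Φ : R →ₐ[ℂ] ℂ[X])
    (h1 : ∀ d m, ∀ h ∈ 𝒜 (d, m), Φ h ≠ 0 → m = d • ν)
    {N : ℕ} (h2 : ∀ h ∈ 𝒜 (1, ν), (Φ h).natDegree ≤ N) (h3 : ∀ h, (Φ h).coeff 0 = x h) :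
    ∃ (e : ℕ) (y : R →ₐ[ℂ] ℂ), ¬ IsVertex 𝒜 y ∧ IsFixed 𝒜 y ν ∧
      (∀ d m, ∀ h ∈ 𝒜 (d, m), (Φ h).natDegree ≤ d * e ∧ y h = (Φ h).coeff (d * e)) ∧
      (¬ TangentWeight 𝒜 y ν 0 → SamePoint 𝒜 y x) := by
  classical
  obtain ⟨f0, hf0, hxf0⟩ := exists_deg_one_ne hgen hx0 hx
  -- the largest degree
  have hex : ∃ e : ℕ, ∀ h ∈ 𝒜 (1, ν), (Φ h).natDegree ≤ e := ⟨N, h2⟩
  set e := Nat.find hex with he
  have hle : ∀ h ∈ 𝒜 (1, ν), (Φ h).natDegree ≤ e := Nat.find_spec hex
  have htop : ∃ h ∈ 𝒜 (1, ν), (Φ h).coeff e ≠ 0 := by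
    by_contra hcon
    push Not at hcon
    rcases Nat.eq_zero_or_pos e with h0 | h0
    · apply hxf0
      rw [← h3, ← h0]
      exact hcon f0 hf0
    · refine Nat.find_min hex (m := e - 1) (by omega) fun h hh => ?_
      refine natDegree_le_iff_coeff_eq_zero.2 fun j hj => ?_
      by_cases hje : j = e
      · rw [hje]
        exact hcon h hh
      · exact coeff_eq_zero_of_natDegree_lt (lt_of_le_of_lt (hle h hh) (by omega))
  -- all degrees
  have h4 : ∀ d m x, IsProd 𝒜 d m x → (Φ x).natDegree ≤ d * e := by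
    intro d m x hx
    induction hx with
    | one => simp
    | @mul d m w x' g hx' hg ih =>
      by_cases hw : w = ν
      · subst hw
        rw [map_mul]
        refine natDegree_mul_le.trans ?_
        rw [Nat.add_mul, one_mul]
        exact Nat.add_le_add ih (hle g hg)
      · have h5 : Φ g = 0 := by
          by_contra hne
          have := h1 1 w g hg hne
          rw [one_smul] at this
          exact hw this
        rw [map_mul, h5, mul_zero, natDegree_zero]
        exact Nat.zero_le _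
  have hdeg : ∀ d m, ∀ h ∈ 𝒜 (d, m), (Φ h).natDegree ≤ d * e := by
    intro d m h hh
    have h5 : Submodule.span ℂ {x | IsProd 𝒜 d m x} ≤
        (Polynomial.degreeLE ℂ ((d * e : ℕ) : WithBot ℕ)).comap Φ.toLinearMap := by
      refine Submodule.span_le.2 fun x hx => ?_
      change Φ x ∈ Polynomial.degreeLE ℂ ((d * e : ℕ) : WithBot ℕ)
      rw [Polynomial.mem_degreeLE, ← natDegree_le_iff_degree_le]
      exact h4 d m x hx
    have h6 := h5 (mem_span_isProd hgen hh)
    change Φ h ∈ Polynomial.degreeLE ℂ ((d * e : ℕ) : WithBot ℕ) at h6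
    rwa [Polynomial.mem_degreeLE, ← natDegree_le_iff_degree_le] at h6
  -- the reversed curve
  let rf : ℕ → (ℂ[X] →ₗ[ℂ] ℂ[X]) := fun n =>
    { toFun := reflect n
      map_add' := fun p q => reflect_add p q n
      map_smul' := fun c p => by
        rw [smul_eq_C_mul, reflect_C_mul, RingHom.id_apply, smul_eq_C_mul] }
  obtain ⟨ρ, hρ⟩ := exists_algHom 𝒜
    (fun i : ℕ × M => if i.2 = i.1 • ν then (rf (i.1 * e)).comp Φ.toLinearMap else 0) (by
      rw [if_pos (by simp)]
      change reflect (0 * e) (Φ 1) = 1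
      rw [map_one, zero_mul, ← C_1, reflect_C, pow_zero, mul_one]) (by
      rintro ⟨d, m⟩ ⟨d', m'⟩ a ha b hb
      dsimp only [Prod.mk_add_mk]
      by_cases hm : m = d • ν
      · by_cases hm' : m' = d' • ν
        · rw [if_pos (by rw [hm, hm', add_smul]), if_pos hm, if_pos hm']
          change reflect ((d + d') * e) (Φ (a * b)) = reflect (d * e) (Φ a) * reflect (d' * e) (Φ b)
          rw [map_mul, add_mul]
          exact reflect_mul _ _ (hdeg d m a ha) (hdeg d' m' b hb)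
        · rw [if_neg hm', LinearMap.zero_apply, mul_zero]
          split_ifs
          · change reflect _ (Φ (a * b)) = 0
            have h4 : Φ b = 0 := by
              by_contra hne
              exact hm' (h1 d' m' b hb hne)
            rw [map_mul, h4, mul_zero, reflect_zero]
          · rfl
      · rw [if_neg hm, LinearMap.zero_apply, zero_mul]
        split_ifs
        · change reflect _ (Φ (a * b)) = 0
          have h4 : Φ a = 0 := by
            by_contra hne
            exact hm (h1 d m a ha hne)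
          rw [map_mul, h4, zero_mul, reflect_zero]
        · rfl)
  have hρ' : ∀ d m, ∀ h ∈ 𝒜 (d, m), ρ h = reflect (d * e) (Φ h) := by
    intro d m h hh
    rw [hρ (d, m) h hh]
    dsimp only
    split_ifs with hm
    · rfl
    · have h4 : Φ h = 0 := by
        by_contra hne
        exact hm (h1 d m h hh hne)
      rw [h4, reflect_zero, LinearMap.zero_apply]
  let y : R →ₐ[ℂ] ℂ := (Polynomial.aeval (0 : ℂ)).comp ρ
  have hyρ : ∀ h, y h = (ρ h).coeff 0 := by
    intro h
    change Polynomial.aeval (0 : ℂ) (ρ h) = _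
    rw [Polynomial.coe_aeval_eq_eval, ← coeff_zero_eq_eval_zero]
  have hy : ∀ d m, ∀ h ∈ 𝒜 (d, m), y h = (Φ h).coeff (d * e) := by
    intro d m h hh
    rw [hyρ, hρ' d m h hh, coeff_reflect, revAt_le (Nat.zero_le _), Nat.sub_zero]
  have hyfix : IsFixed 𝒜 y ν := by
    intro d m h hh hne
    refine h1 d m h hh fun h4 => hne ?_
    rw [hy d m h hh, h4, coeff_zero]
  have hy0 : ¬ IsVertex 𝒜 y := by
    intro hv
    obtain ⟨h, hh, hne⟩ := htop
    apply hne
    have h4 := hv 1 ν one_pos h hh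
    rwa [hy 1 ν h hh, one_mul] at h4
  refine ⟨e, y, hy0, hyfix, fun d m h hh => ⟨hdeg d m h hh, hy d m h hh⟩, fun hno => ?_⟩
  obtain ⟨f, hf, hyf, hall⟩ := isolated hgen hy0 hyfix hno
    ((Polynomial.coeToPowerSeries.algHom ℂ).comp ρ) (by
      intro d m h hh hne
      refine h1 d m h hh fun h4 => hne ?_
      rw [AlgHom.comp_apply, hρ' d m h hh, h4, reflect_zero, map_zero]) (by
      intro h
      rw [AlgHom.comp_apply, hyρ]
      simp)
  have hall' : ∀ d m, ∀ h ∈ 𝒜 (d, m), ρ h = ρ f ^ d * C (y h) := by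
    intro d m h hh
    have h4 := hall d m h hh
    apply Polynomial.coe_injective ℂ
    rw [Polynomial.coe_mul, Polynomial.coe_pow, Polynomial.coe_C]
    simpa using h4
  have hnd : (ρ f).natDegree ≤ e := by
    rw [hρ' 1 ν f hf, one_mul]
    refine natDegree_le_iff_coeff_eq_zero.2 fun j hj => ?_
    rw [coeff_reflect, revAt_eq_self_of_lt hj]
    exact coeff_eq_zero_of_natDegree_lt (lt_of_le_of_lt (hle f hf) hj)
  have hxy : ∀ d m, ∀ h ∈ 𝒜 (d, m), x h = (ρ f).coeff e ^ d * y h := by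
    intro d m h hh
    have h4 : x h = (ρ h).coeff (d * e) := by
      rw [hρ' d m h hh, coeff_reflect, revAt_le le_rfl, Nat.sub_self, h3]
    rw [h4, hall' d m h hh, coeff_mul_C, coeff_pow_of_natDegree_le hnd]
  refine ⟨(ρ f).coeff e, fun hc => ?_, hxy⟩
  apply hxf0
  rw [hxy 1 ν f0 hf0, hc, pow_one, zero_mul]

end

end Vale.Agent.P280.H226.Eq
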