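import Vale.Agent.P280.H226.EqLim
import Vale.Agent.P280.N.M2
import Vale.Agent.P280.H475.Trans

/-! P280, helper226: limits of fixed points under a nilpotent vector field of weight `0`; tangent
vectors killed by a nilpotent operator. -/

open DirectSum Vale.Agent.P280.T

namespace Vale.Agent.P280.H226.Eq

section
variable {M : Type} [AddCommGroup M] [DecidableEq M] {R : Type} [CommRing R] [Algebra ℂ R]
  {𝒜 : ℕ × M → Submodule ℂ R} [GradedAlgebra 𝒜]

/-- A locally nilpotent operator is nilpotent in degree one. -/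
theorem exists_bound (hX : IsTorusManifold 𝒜) {T : Module.End ℂ R}
    (hT : ∀ h, ∃ n : ℕ, (T ^ n) h = 0) : ∃ B : ℕ, ∀ h ∈ H939.deg 𝒜 1, (T ^ B) h = 0 := by
  classical
  obtain ⟨s, hs⟩ := H939.deg_one_fg hX
  choose n hn using hT
  refine ⟨s.sup n, fun h hh => ?_⟩
  rw [← hs] at hh
  induction hh using Submodule.span_induction with
  | mem x hx =>
    have h1 : n x ≤ s.sup n := Finset.le_sup hx
    obtain ⟨k, hk⟩ := Nat.exists_eq_add_of_le h1
    rw [hk, add_comm, pow_add, Module.End.mul_apply, hn, map_zero]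
  | zero => rw [map_zero]
  | add x y _ _ hx hy => rw [map_add, hx, hy, add_zero]
  | smul c x _ hx => rw [map_smul, hx, smul_zero]

/-- A tangent vector of weight `0`, not a multiple of the Euler vector, which a nilpotent operator
sends to a multiple of the Euler vector. -/
theorem exists_eigvec (hX : IsTorusManifold 𝒜) {T : Module.End ℂ R}
    (hT : ∀ d m, ∀ h ∈ 𝒜 (d, m), T h ∈ 𝒜 (d, m)) (hn : ∀ h, ∃ n : ℕ, (T ^ n) h = 0)
    {y : R →ₐ[ℂ] ℂ} {ν : M}
    (hTy : ∀ v : R →ₗ[ℂ] ℂ, IsTangent y v → IsTangent y (v.comp T))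
    (h0 : TangentWeight 𝒜 y ν 0) :
    ∃ v : R →ₗ[ℂ] ℂ, IsTangent y v ∧ HasWeight 𝒜 ν 0 v ∧
      (∀ c : ℂ, ∃ (d : ℕ) (m : M), ∃ h ∈ 𝒜 (d, m), v h ≠ c * d * y h) ∧
      ∃ k : ℂ, ∀ d m, ∀ h ∈ 𝒜 (d, m), v (T h) = k * d * y h := by
  classical
  obtain ⟨B, hB⟩ := exists_bound hX hn
  obtain ⟨v0, hv0, hw0, hne0⟩ := h0
  have hit : ∀ n : ℕ, ∀ d m, ∀ h ∈ 𝒜 (d, m), (T ^ n) h ∈ 𝒜 (d, m) := by
    intro n
    induction n with
    | zero => intro d m h hh; simpa using hh
    | succ n ih =>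
      intro d m h hh
      rw [pow_succ, Module.End.mul_apply]
      exact ih d m _ (hT d m h hh)
  have htan : ∀ n : ℕ, IsTangent y (v0.comp (T ^ n)) := by
    intro n
    induction n with
    | zero =>
      rw [pow_zero, Module.End.one_eq_id, LinearMap.comp_id]
      exact hv0
    | succ n ih =>
      have := hTy _ ih
      rw [LinearMap.comp_assoc, ← Module.End.mul_eq_comp, ← pow_succ] at this
      exact this
  have hex : ∃ n : ℕ, ∃ c : ℂ, ∀ d m, ∀ h ∈ 𝒜 (d, m), v0 ((T ^ n) h) = c * d * y h := by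
    refine ⟨B, 0, fun d m h _ => ?_⟩
    have h2 := H587.tangent_eq_zero hX (htan B) (fun m g hg => by
      rw [LinearMap.comp_apply, hB g (le_iSup (fun m => 𝒜 (1, m)) m hg), map_zero]) h
    rw [LinearMap.comp_apply] at h2
    rw [h2, zero_mul, zero_mul]
  obtain ⟨c, hc⟩ := Nat.find_spec hex
  set n := Nat.find hex with hndef
  have hn0 : n ≠ 0 := by
    intro hn0
    obtain ⟨d, m, h, hh, hne⟩ := hne0 c
    apply hne
    have := hc d m h hh
    rwa [hn0, pow_zero, Module.End.one_apply] at this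
  obtain ⟨k, hk⟩ := Nat.exists_eq_succ_of_ne_zero hn0
  refine ⟨v0.comp (T ^ k), htan k, ?_, ?_, c, ?_⟩
  · intro d m h hh hne
    exact hw0 d m _ (hit k d m h hh) hne
  · intro c'
    by_contra hcon
    push Not at hcon
    exact Nat.find_min hex (m := k) (by omega) ⟨c', hcon⟩
  · intro d m h hh
    have h1 := hc d m h hh
    rw [hk, Nat.succ_eq_add_one, pow_succ, Module.End.mul_apply] at h1
    exact h1

open Polynomial in
/-- The limit of a fixed point under a nilpotent vector field of weight `0`. -/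
theorem lim_nil (hX : IsTorusManifold 𝒜) {N : Derivation ℂ R R}
    (hN : ∀ d m, ∀ h ∈ 𝒜 (d, m), N h ∈ 𝒜 (d, m)) (hn : ∀ h, ∃ n : ℕ, (⇑N)^[n] h = 0)
    {x : R →ₐ[ℂ] ℂ} {ν : M} (hx0 : ¬ IsVertex 𝒜 x) (hx : IsFixed 𝒜 x ν) :
    ∃ y : R →ₐ[ℂ] ℂ, ¬ IsVertex 𝒜 y ∧ IsFixed 𝒜 y ν ∧ (∀ h, y (N h) = 0) ∧
      (∀ E : Derivation ℂ R R, (∀ d m, ∀ h ∈ 𝒜 (d, m), E h ∈ 𝒜 (d, m)) →
        (∀ (n : ℕ) (h : R), x ((⇑N)^[n] (E h)) = 0) → ∀ h, y (E h) = 0) ∧
      (¬ TangentWeight 𝒜 y ν 0 → SamePoint 𝒜 y x) := by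
  obtain ⟨φ, hφ⟩ := H475.exists_expX N hn
  have hit : ∀ n : ℕ, ∀ d m, ∀ h ∈ 𝒜 (d, m), (⇑N)^[n] h ∈ 𝒜 (d, m) := by
    intro n
    induction n with
    | zero => intro d m h hh; exact hh
    | succ n ih =>
      intro d m h hh
      rw [Function.iterate_succ_apply]
      exact ih d m _ (hN d m h hh)
  have hco : ∀ h n, ((mapAlgHom x).comp φ h).coeff n =
      ((n.factorial : ℂ))⁻¹ * x ((⇑N)^[n] h) := by
    intro h n
    rw [AlgHom.comp_apply, coe_mapAlgHom, coeff_map]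
    change x ((φ h).coeff n) = _
    rw [hφ, map_smul, smul_eq_mul]
  have hfac : ∀ n : ℕ, ((n.factorial : ℂ))⁻¹ ≠ 0 := fun n =>
    inv_ne_zero (by exact_mod_cast n.factorial_ne_zero)
  obtain ⟨B, hB⟩ := exists_bound hX (T := (N : R →ₗ[ℂ] R)) (fun h => by
    obtain ⟨n, hn⟩ := hn h
    exact ⟨n, by rw [Module.End.pow_apply]; exact hn⟩)
  have hB' : ∀ h ∈ 𝒜 (1, ν), (⇑N)^[B] h = 0 := by
    intro h hh
    have h1 := hB h (le_iSup (fun m => 𝒜 (1, m)) ν hh)
    rw [Module.End.pow_apply] at h1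
    exact h1
  obtain ⟨e, y, hy0, hy, hdeg, hsame⟩ := lim_of_flow hX.gen hx0 hx ((mapAlgHom x).comp φ) (by
    intro d m h hh hne
    have h1 : ∃ n, ((mapAlgHom x).comp φ h).coeff n ≠ 0 := by
      by_contra hcon
      push Not at hcon
      exact hne (Polynomial.ext fun n => by rw [hcon n, coeff_zero])
    obtain ⟨n, hn1⟩ := h1
    rw [hco] at hn1
    exact hx d m _ (hit n d m h hh) (right_ne_zero_of_mul hn1)) (N := B) (by
    intro h hh
    refine natDegree_le_iff_coeff_eq_zero.2 fun j hj => ?_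
    rw [hco, H475.iterate_zero_of_le (hB' h hh) hj.le, map_zero, mul_zero]) (by
    intro h
    rw [hco]
    simp)
  refine ⟨y, hy0, hy, ?_, ?_, hsame⟩
  · have h1 : y.toLinearMap.comp (N : R →ₗ[ℂ] R) = 0 := by
      refine linearMap_ext_graded 𝒜 ?_
      rintro ⟨d, m⟩ h hh
      rw [LinearMap.comp_apply, LinearMap.zero_apply]
      change y (N h) = 0
      rw [(hdeg d m _ (hN d m h hh)).2, hco]
      have h2 : ((mapAlgHom x).comp φ h).coeff (d * e + 1) = 0 :=
        coeff_eq_zero_of_natDegree_lt (lt_of_le_of_lt (hdeg d m h hh).1 (Nat.lt_succ_self _))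
      rw [hco] at h2
      have h3 := (mul_eq_zero.1 h2).resolve_left (hfac _)
      rw [Function.iterate_succ_apply] at h3
      rw [h3, mul_zero]
    exact fun h => LinearMap.congr_fun h1 h
  · intro E hE hxE
    have h1 : y.toLinearMap.comp (E : R →ₗ[ℂ] R) = 0 := by
      refine linearMap_ext_graded 𝒜 ?_
      rintro ⟨d, m⟩ h hh
      rw [LinearMap.comp_apply, LinearMap.zero_apply]
      change y (E h) = 0
      rw [(hdeg d m _ (hE d m h hh)).2, hco, hxE, mul_zero]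
    exact fun h => LinearMap.congr_fun h1 h

end

end Vale.Agent.P280.H226.Eq
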