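import Vale.Agent.P280.H226.EqNil

/-! P280, helper226: limits of fixed points under a unipotent automorphism of weight `0`. -/

open DirectSum Polynomial

namespace Vale.Agent.P280.H226.Eq

theorem poly_ext_nat {p q : ℂ[X]} (h : ∀ n : ℕ, p.eval (n : ℂ) = q.eval (n : ℂ)) : p = q :=
  Polynomial.eq_of_infinite_eval_eq p q
    ((Set.infinite_range_of_injective (Nat.cast_injective (R := ℂ))).mono (by
      rintro _ ⟨n, rfl⟩
      exact h n))

theorem taylor_top {f : ℂ[X]} {n : ℕ} (hf : f.natDegree ≤ n) (r : ℂ) :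
    (taylor r f).coeff n = f.coeff n := by
  have h1 : hasseDeriv n f = C (f.coeff n) := by
    ext j
    rw [hasseDeriv_coeff, coeff_C]
    split_ifs with hj
    · subst hj
      rw [zero_add, Nat.choose_self, Nat.cast_one, one_mul]
    · rw [coeff_eq_zero_of_natDegree_lt (by omega), mul_zero]
  rw [taylor_coeff, h1, eval_C]

section
variable {R : Type} [CommRing R] [Algebra ℂ R]

/-- The polynomial `n ↦ x (γ ^ n h)`. -/
theorem exists_flow {γ : R →ₐ[ℂ] R}
    (hn : ∀ h, ∃ n : ℕ, ((γ.toLinearMap - 1 : Module.End ℂ R) ^ n) h = 0) (x : R →ₐ[ℂ] ℂ) :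
    ∃ Φ : R →ₐ[ℂ] ℂ[X], (∀ h, ∀ n : ℕ, (Φ h).eval (n : ℂ) = x ((γ ^ n) h)) ∧
      (∀ h, (∀ j : ℕ, x (((γ.toLinearMap - 1 : Module.End ℂ R) ^ j) h) = 0) → Φ h = 0) ∧
      (∀ h, ∀ B : ℕ, ((γ.toLinearMap - 1 : Module.End ℂ R) ^ B) h = 0 →
        (Φ h).natDegree ≤ B) := by
  set T : Module.End ℂ R := γ.toLinearMap - 1 with hT
  choose N hN using hn
  have hpow : ∀ (n : ℕ) (h : R), (γ ^ n) h = ((1 + T) ^ n) h := by
    intro n h
    have e : (1 + T : Module.End ℂ R) = γ.toLinearMap := by rw [hT]; abel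
    rw [e]
    induction n generalizing h with
    | zero => rfl
    | succ n ih =>
      rw [pow_succ, pow_succ, Module.End.mul_apply, AlgHom.mul_apply, ih]
      rfl
  have hz : ∀ (h : R) (j : ℕ), N h ≤ j → (T ^ j) h = 0 := by
    intro h j hj
    obtain ⟨k, rfl⟩ := Nat.exists_eq_add_of_le hj
    rw [add_comm, pow_add, Module.End.mul_apply, hN, map_zero]
  let Φ0 : R → ℂ[X] := fun h => ∑ j ∈ Finset.range (N h),
    C (((j.factorial : ℂ))⁻¹ * x ((T ^ j) h)) * descPochhammer ℂ j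
  have hΦ0 : ∀ h, ∀ n : ℕ, (Φ0 h).eval (n : ℂ) = x ((γ ^ n) h) := by
    intro h n
    have h1 : (Φ0 h).eval (n : ℂ) = ∑ j ∈ Finset.range (N h), (n.choose j : ℂ) * x ((T ^ j) h) := by
      rw [eval_finsetSum]
      refine Finset.sum_congr rfl fun j _ => ?_
      rw [eval_mul, eval_C, descPochhammer_eval_eq_descFactorial,
        Nat.descFactorial_eq_factorial_mul_choose, Nat.cast_mul]
      have h2 : (j.factorial : ℂ) ≠ 0 := by exact_mod_cast j.factorial_ne_zero
      field_simp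
    have h2 : x ((γ ^ n) h) = ∑ j ∈ Finset.range (n + 1), (n.choose j : ℂ) * x ((T ^ j) h) := by
      rw [hpow, add_comm, (Commute.one_right T).add_pow, LinearMap.sum_apply, map_sum]
      refine Finset.sum_congr rfl fun j _ => ?_
      rw [one_pow, mul_one, (Nat.cast_commute (n.choose j) (T ^ j)).symm.eq, ← nsmul_eq_mul,
        LinearMap.smul_apply, map_nsmul, nsmul_eq_mul]
    rw [h1, h2]
    rcases le_total (N h) (n + 1) with hle | hle
    · refine Finset.sum_subset (Finset.range_mono hle) fun j _ hj => ?_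
      rw [Finset.mem_range, not_lt] at hj
      rw [hz h j hj, map_zero, mul_zero]
    · refine (Finset.sum_subset (Finset.range_mono hle) fun j _ hj => ?_).symm
      rw [Finset.mem_range, not_lt] at hj
      rw [Nat.choose_eq_zero_of_lt (by omega), Nat.cast_zero, zero_mul]
  let L : R →ₗ[ℂ] ℂ[X] :=
    { toFun := Φ0
      map_add' := fun a b => poly_ext_nat fun n => by
        rw [eval_add, hΦ0, hΦ0, hΦ0, map_add, map_add]
      map_smul' := fun c a => poly_ext_nat fun n => by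
        rw [RingHom.id_apply, eval_smul, hΦ0, hΦ0, map_smul, map_smul] }
  let Φ : R →ₐ[ℂ] ℂ[X] := AlgHom.ofLinearMap L
    (poly_ext_nat fun n => by
      change (Φ0 1).eval (n : ℂ) = _
      rw [hΦ0, map_one, map_one, eval_one])
    (fun a b => poly_ext_nat fun n => by
      change (Φ0 (a * b)).eval (n : ℂ) = (Φ0 a * Φ0 b).eval (n : ℂ)
      rw [eval_mul, hΦ0, hΦ0, hΦ0, map_mul, map_mul])
  refine ⟨Φ, hΦ0, fun h h0 => ?_, fun h B hB => ?_⟩
  · change Φ0 h = 0
    refine Finset.sum_eq_zero fun j _ => ?_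
    rw [h0, mul_zero, C_0, zero_mul]
  · change (Φ0 h).natDegree ≤ B
    refine natDegree_sum_le_of_forall_le _ _ fun j _ => ?_
    by_cases hj : B ≤ j
    · have h1 : (T ^ j) h = 0 := by
        obtain ⟨k, rfl⟩ := Nat.exists_eq_add_of_le hj
        rw [add_comm, pow_add, Module.End.mul_apply, hB, map_zero]
      rw [h1, map_zero, mul_zero, C_0, zero_mul, natDegree_zero]
      exact Nat.zero_le _
    · refine (natDegree_C_mul_le _ _).trans ?_
      rw [descPochhammer_natDegree]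
      omega

end

section
variable {M : Type} [AddCommGroup M] [DecidableEq M] {R : Type} [CommRing R] [Algebra ℂ R]
  {𝒜 : ℕ × M → Submodule ℂ R} [GradedAlgebra 𝒜]

/-- The limit of a fixed point under a unipotent automorphism of weight `0`. -/
theorem lim_uni (hX : T.IsTorusManifold 𝒜) {γ : R →ₐ[ℂ] R}
    (hγ : ∀ d m, ∀ h ∈ 𝒜 (d, m), γ h ∈ 𝒜 (d, m))
    (hn : ∀ h, ∃ n : ℕ, ((γ.toLinearMap - 1 : Module.End ℂ R) ^ n) h = 0)
    {x : R →ₐ[ℂ] ℂ} {ν : M} (hx0 : ¬ T.IsVertex 𝒜 x) (hx : T.IsFixed 𝒜 x ν) :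
    ∃ y : R →ₐ[ℂ] ℂ, ¬ T.IsVertex 𝒜 y ∧ T.IsFixed 𝒜 y ν ∧ (∀ h, y (γ h) = y h) ∧
      (¬ T.TangentWeight 𝒜 y ν 0 → T.SamePoint 𝒜 y x) := by
  obtain ⟨Φ, hev, hz, hdg⟩ := exists_flow hn x
  obtain ⟨B, hB⟩ := exists_bound hX hn
  have hit : ∀ n : ℕ, ∀ d m, ∀ h ∈ 𝒜 (d, m),
      ((γ.toLinearMap - 1 : Module.End ℂ R) ^ n) h ∈ 𝒜 (d, m) := by
    intro n
    induction n with
    | zero => intro d m h hh; exact hh
    | succ n ih =>
      intro d m h hh
      rw [pow_succ, Module.End.mul_apply]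
      exact ih d m _ (Submodule.sub_mem _ (hγ d m h hh) hh)
  obtain ⟨e, y, hy0, hy, hdeg, hsame⟩ := lim_of_flow hX.gen hx0 hx Φ (by
    intro d m h hh hne
    by_contra hm
    refine hne (hz h fun j => ?_)
    by_contra hj
    exact hm (hx d m _ (hit j d m h hh) hj)) (N := B) (fun h hh => hdg h B
      (hB h (le_iSup (fun m => 𝒜 (1, m)) ν hh))) (by
    intro h
    have h1 := hev h 0
    rw [Nat.cast_zero, ← coeff_zero_eq_eval_zero, pow_zero] at h1
    exact h1)
  refine ⟨y, hy0, hy, ?_, hsame⟩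
  have hshift : ∀ h, Φ (γ h) = taylor 1 (Φ h) := by
    intro h
    refine poly_ext_nat fun n => ?_
    rw [hev, taylor_eval, ← Nat.cast_succ, hev, pow_succ, AlgHom.mul_apply]
  have h1 : y.toLinearMap.comp γ.toLinearMap = y.toLinearMap := by
    refine T.linearMap_ext_graded 𝒜 ?_
    rintro ⟨d, m⟩ h hh
    rw [LinearMap.comp_apply]
    change y (γ h) = y h
    rw [(hdeg d m _ (hγ d m h hh)).2, (hdeg d m h hh).2, hshift,
      taylor_top (hdeg d m h hh).1]
  exact fun h => LinearMap.congr_fun h1 h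

end

end Vale.Agent.P280.H226.Eq
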