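import Vale.Agent.P280.H63X.Chain
import Vale.Agent.P280.H63X.D02
import Vale.Agent.P280.H448.FaceGen
import Vale.Agent.P280.H448.Brk

/-! P280, T7, helper226: the minimal face of a boundary weight under `H63X.Hyp`. -/

open DirectSum Vale.Agent.P280.T Vale.Agent.P280.H127

namespace Vale.Agent.P280.H226

open Vale.Agent.P280.N Vale.Agent.P280.H490

variable {r : ℕ} {R : Type} [CommRing R] [IsDomain R] [Algebra ℂ R]
  {𝒜 : ℕ × (Fin r → ℤ) → Submodule ℂ R} [GradedAlgebra 𝒜]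

theorem fext {a b : Fin r → ℤ} (h : ∀ g : (Fin r → ℤ) →+ ℤ, g a = g b) : a = b :=
  funext fun i => h (Pi.evalAddMonoidHom (fun _ : Fin r => ℤ) i)

theorem fcases {N b : ℤ} (hN : 0 < N) (hd : N ∣ b) (h0 : 0 ≤ b) (h1 : b ≤ N) :
    b = 0 ∨ b = N := by
  obtain ⟨k, rfl⟩ := hd
  have hk0 : 0 ≤ k := by
    by_contra h
    push Not at h
    nlinarith
  have hk1 : k ≤ 1 := by
    by_contra h
    push Not at h
    nlinarith
  interval_cases k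
  · left; ring
  · right; ring

/-- The situation of the face of `lam`. -/
structure FCtx (𝒜 : ℕ × (Fin r → ℤ) → Submodule ℂ R) (lam : Fin r → ℤ)
    (l : (Fin r → ℤ) →+ ℤ) (N : ℤ) (β : (Fin r → ℤ) → ((Fin r → ℤ) →+ ℤ))
    (E F : (Fin r → ℤ) → VF R) : Prop where
  H : H63X.Hyp 𝒜
  hw : Wt 𝒜 lam
  hl : 0 < l lam
  hmax : ∀ ω, Wt 𝒜 ω → l ω ≤ l lam
  hRI : ∀ g : (Fin r → ℤ) →+ ℤ, (∀ ω, Wt 𝒜 ω → l ω = l lam → g ω ≤ g lam) →
    ∀ ω, Wt 𝒜 ω → l ω = l lam → g ω = g lam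
  hN : 0 < N
  root : ∀ χ, Vx 𝒜 χ → l χ = l lam → Root 𝒜 N χ (β χ) (E χ) (F χ)
  nv : ¬ Vx 𝒜 lam

namespace FCtx

variable {lam : Fin r → ℤ} {l : (Fin r → ℤ) →+ ℤ} {N : ℤ}
  {β : (Fin r → ℤ) → ((Fin r → ℤ) →+ ℤ)} {E F : (Fin r → ℤ) → VF R}

omit [GradedAlgebra 𝒜] in
theorem two (c : FCtx 𝒜 lam l N β E F) {χ : Fin r → ℤ} (hχ : Vx 𝒜 χ) (hχl : l χ = l lam) :
    β χ χ = 2 * N := (c.root χ hχ hχl).two

omit [GradedAlgebra 𝒜] in
theorem ne_neg (c : FCtx 𝒜 lam l N β E F) {χ ω : Fin r → ℤ} (hχl : l χ = l lam)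
    (hωl : l ω = l lam) : ω ≠ -χ := by
  intro h
  have h1 := c.hl
  rw [h, map_neg, hχl] at hωl
  linarith

omit [GradedAlgebra 𝒜] in
theorem nonneg (c : FCtx 𝒜 lam l N β E F) {χ : Fin r → ℤ} (hχ : Vx 𝒜 χ) (hχl : l χ = l lam)
    {ω : Fin r → ℤ} (hω : Wt 𝒜 ω) (hωl : l ω = l lam) : 0 ≤ β χ ω := by
  have h1 := (c.root χ hχ hχl).hull l (l lam) c.hmax ω hω
  rw [hωl, hχl] at h1
  have h2 := c.hl
  by_contra h3
  push Not at h3
  nlinarith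

omit [GradedAlgebra 𝒜] in
theorem le_N (c : FCtx 𝒜 lam l N β E F) {χ : Fin r → ℤ} (hχ : Vx 𝒜 χ) (hχl : l χ = l lam)
    {ω : Fin r → ℤ} (hω : Wt 𝒜 ω) (hωl : l ω = l lam) (hne : ω ≠ χ) : β χ ω ≤ N :=
  (abs_le.1 ((c.root χ hχ hχl).bd ω hω hne (c.ne_neg hχl hωl))).2

omit [GradedAlgebra 𝒜] in
theorem vals (c : FCtx 𝒜 lam l N β E F) {χ : Fin r → ℤ} (hχ : Vx 𝒜 χ) (hχl : l χ = l lam)
    {ω : Fin r → ℤ} (hω : Wt 𝒜 ω) (hωl : l ω = l lam) (hne : ω ≠ χ) :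
    β χ ω = 0 ∨ β χ ω = N :=
  fcases c.hN ((c.root χ hχ hχl).int ω hω) (c.nonneg hχ hχl hω hωl) (c.le_N hχ hχl hω hωl hne)

omit [GradedAlgebra 𝒜] in
theorem val_lam (c : FCtx 𝒜 lam l N β E F) {χ : Fin r → ℤ} (hχ : Vx 𝒜 χ)
    (hχl : l χ = l lam) : β χ lam = N := by
  have hne : lam ≠ χ := fun h => c.nv (by rw [h]; exact hχ)
  rcases c.vals hχ hχl c.hw rfl hne with h | h
  · exfalso
    have h1 := c.hRI (-β χ) (fun ω hω hωl => by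
      rw [AddMonoidHom.neg_apply, AddMonoidHom.neg_apply, h]
      have := c.nonneg hχ hχl hω hωl
      linarith) χ hχ.1 hχl
    rw [AddMonoidHom.neg_apply, AddMonoidHom.neg_apply, h, c.two hχ hχl] at h1
    have := c.hN
    linarith
  · exact h

theorem exists_bar (c : FCtx 𝒜 lam l N β E F) {χ : Fin r → ℤ} (hχ : Vx 𝒜 χ)
    (hχl : l χ = l lam) : ∃ ψ, (Vx 𝒜 ψ ∧ l ψ = l lam) ∧ β χ ψ = 0 := by
  obtain ⟨ψ, hψ, hψl, h1⟩ := H63X.max_at_vertex c.H l c.hl c.hmax ⟨lam, c.hw, rfl⟩ (-β χ)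
  refine ⟨ψ, ⟨hψ, hψl⟩, ?_⟩
  by_contra h2
  have hN := c.hN
  have h3 : N ≤ β χ ψ := by
    by_cases h4 : ψ = χ
    · rw [h4, c.two hχ hχl]
      linarith
    · rcases c.vals hχ hχl hψ.1 hψl h4 with h5 | h5
      · exact absurd h5 h2
      · exact h5.ge
  have h4 := c.hRI (-β χ) (fun ω hω hωl => by
    have h5 := h1 ω hω hωl
    rw [AddMonoidHom.neg_apply, AddMonoidHom.neg_apply] at h5 ⊢
    rw [c.val_lam hχ hχl]
    linarith) χ hχ.1 hχl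
  rw [AddMonoidHom.neg_apply, AddMonoidHom.neg_apply, c.val_lam hχ hχl, c.two hχ hχl] at h4
  linarith

theorem symm0 (c : FCtx 𝒜 lam l N β E F) {χ ψ : Fin r → ℤ} (hχ : Vx 𝒜 χ)
    (hχl : l χ = l lam) (hψ : Vx 𝒜 ψ) (hψl : l ψ = l lam) (h : β χ ψ = 0) : β ψ χ = 0 := by
  have hN := c.hN
  have hne : χ ≠ ψ := by
    rintro rfl
    rw [c.two hχ hχl] at h
    linarith
  rcases c.vals hψ hψl hχ.1 hχl hne with h1 | h1
  · exact h1
  · exfalso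
    have h2 := H63X.reflect_vertex c.H hN hψ (c.root ψ hψ hψl) hχ (k := 1) (by rw [h1, one_mul])
    rw [one_smul] at h2
    have h3 : β χ (χ - ψ) = 2 * N := by rw [map_sub, c.two hχ hχl, h, sub_zero]
    have h4 := (c.root χ hχ hχl).bd _ h2.1 (fun h5 => by
      rw [h5] at h3
      have h6 : l (χ - ψ) = l χ := by rw [h5]
      rw [map_sub, hχl, hψl] at h6
      have := c.hl
      linarith) (fun h5 => by
      rw [h5, map_neg, c.two hχ hχl] at h3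
      linarith)
    rw [h3, abs_of_pos (by linarith)] at h4
    linarith

theorem sum2 (c : FCtx 𝒜 lam l N β E F) {χ ψ : Fin r → ℤ} (hχ : Vx 𝒜 χ)
    (hχl : l χ = l lam) (hψ : Vx 𝒜 ψ) (hψl : l ψ = l lam) (h : β χ ψ = 0) {ω : Fin r → ℤ}
    (hω : Wt 𝒜 ω) (hωl : l ω = l lam) : β χ ω + β ψ ω = 2 * N := by
  have h' := c.symm0 hχ hχl hψ hψl h
  have h1 := c.hRI (β χ + β ψ) (fun ω hω hωl => by
    rw [AddMonoidHom.add_apply, AddMonoidHom.add_apply, c.val_lam hχ hχl, c.val_lam hψ hψl]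
    by_cases h1 : ω = χ
    · rw [h1, c.two hχ hχl, h']
      linarith
    · by_cases h2 : ω = ψ
      · rw [h2, c.two hψ hψl, h]
        linarith
      · have h3 := c.le_N hχ hχl hω hωl h1
        have h4 := c.le_N hψ hψl hω hωl h2
        linarith) ω hω hωl
  rw [AddMonoidHom.add_apply, AddMonoidHom.add_apply, c.val_lam hχ hχl, c.val_lam hψ hψl] at h1
  linarith

theorem uniq (c : FCtx 𝒜 lam l N β E F) {χ ψ : Fin r → ℤ} (hχ : Vx 𝒜 χ)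
    (hχl : l χ = l lam) (hψ : Vx 𝒜 ψ) (hψl : l ψ = l lam) (h : β χ ψ = 0) {ω : Fin r → ℤ}
    (hω : Wt 𝒜 ω) (hωl : l ω = l lam) (h0 : β χ ω = 0) : ω = ψ := by
  have h1 := c.sum2 hχ hχl hψ hψl h hω hωl
  by_contra h2
  have h3 := c.le_N hψ hψl hω hωl h2
  have := c.hN
  linarith

theorem other (c : FCtx 𝒜 lam l N β E F) {χ ψ : Fin r → ℤ} (hχ : Vx 𝒜 χ)
    (hχl : l χ = l lam) (hψ : Vx 𝒜 ψ) (hψl : l ψ = l lam) (h : β χ ψ = 0) {ω : Fin r → ℤ}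
    (hω : Wt 𝒜 ω) (hωl : l ω = l lam) (h1 : ω ≠ χ) (h2 : ω ≠ ψ) : β χ ω = N := by
  rcases c.vals hχ hχl hω hωl h1 with h3 | h3
  · exact absurd (c.uniq hχ hχl hψ hψl h hω hωl h3) h2
  · exact h3

theorem const_sum (c : FCtx 𝒜 lam l N β E F) {χ ψ χ' ψ' : Fin r → ℤ} (hχ : Vx 𝒜 χ)
    (hχl : l χ = l lam) (hψ : Vx 𝒜 ψ) (hψl : l ψ = l lam) (h : β χ ψ = 0) (hχ' : Vx 𝒜 χ')
    (hχl' : l χ' = l lam) (hψ' : Vx 𝒜 ψ') (hψl' : l ψ' = l lam) (h' : β χ' ψ' = 0) :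
    χ + ψ = χ' + ψ' := by
  have hN := c.hN
  by_cases h1 : χ' = χ
  · subst h1
    rw [c.uniq hχ hχl hψ' hψl' h' hψ.1 hψl h]
  by_cases h2 : χ' = ψ
  · subst h2
    have h3 := c.symm0 hχ hχl hχ' hχl' h
    rw [c.uniq hχ' hχl' hχ hχl h3 hψ'.1 hψl' h', add_comm]
  have h3 : β χ χ' = N := c.other hχ hχl hψ hψl h hχ'.1 hχl' h1 h2
  have h4 : ψ' ≠ χ := by
    rintro rfl
    have := c.symm0 hχ' hχl' hχ hχl h'
    linarith
  have h5 : ψ' ≠ ψ := by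
    rintro rfl
    exact h1 (c.uniq hψ hψl hχ hχl (c.symm0 hχ hχl hψ hψl h) hχ'.1 hχl'
      (c.symm0 hχ' hχl' hψ hψl h'))
  have h6 : β χ ψ' = N := c.other hχ hχl hψ hψl h hψ'.1 hψl' h4 h5
  have h7 : β χ' χ = N := c.other hχ' hχl' hψ' hψl' h' hχ.1 hχl (Ne.symm h1) (Ne.symm h4)
  have h8 := H63X.reflect_vertex c.H hN hχ (c.root χ hχ hχl) hψ' (k := 1) (by rw [h6, one_mul])
  have h9 := H63X.reflect_vertex c.H hN hχ' (c.root χ' hχ' hχl') h8 (k := -1) (by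
    rw [map_sub, map_zsmul, h', h7, one_smul]
    ring)
  have h10 : ψ' - (1 : ℤ) • χ - (-1 : ℤ) • χ' = ψ := by
    refine c.uniq hχ hχl hψ hψl h h9.1 ?_ ?_
    · rw [map_sub, map_sub, map_zsmul, map_zsmul, hψl', hχl, hχl', one_smul, neg_smul, one_smul]
      ring
    · rw [map_sub, map_sub, map_zsmul, map_zsmul, h6, h3, c.two hχ hχl, one_smul, neg_smul,
        one_smul]
      ring
  rw [← h10, one_smul, neg_smul, one_smul]
  abel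

/-- Twice a weight of the face which is no vertex. -/
theorem half (c : FCtx 𝒜 lam l N β E F) {χ₀ ψ₀ : Fin r → ℤ} (hχ₀ : Vx 𝒜 χ₀)
    (hχl₀ : l χ₀ = l lam) (hψ₀ : Vx 𝒜 ψ₀) (hψl₀ : l ψ₀ = l lam) (h₀ : β χ₀ ψ₀ = 0)
    {ω : Fin r → ℤ} (hω : Wt 𝒜 ω) (hωl : l ω = l lam) (hnv : ¬ Vx 𝒜 ω) :
    ω + ω = χ₀ + ψ₀ := by
  classical
  have hN := c.hN
  have hfin : {χ | Vx 𝒜 χ ∧ l χ = l lam}.Finite :=
    (H63X.C07.wt_finite c.H).subset fun χ hχ => hχ.1.1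
  have hb : ∀ χ, ∃ ψ, (Vx 𝒜 χ ∧ l χ = l lam) → ((Vx 𝒜 ψ ∧ l ψ = l lam) ∧ β χ ψ = 0) := by
    intro χ
    by_cases h : Vx 𝒜 χ ∧ l χ = l lam
    · obtain ⟨ψ, hψ⟩ := c.exists_bar h.1 h.2
      exact ⟨ψ, fun _ => hψ⟩
    · exact ⟨0, fun h' => absurd h' h⟩
  choose bar hbar using hb
  apply fext
  intro g
  -- the functional
  obtain ⟨G, hG⟩ : ∃ G : (Fin r → ℤ) →+ ℤ, ∀ x, G x = 4 * N * g x -
      ∑ χ ∈ hfin.toFinset, g χ * (β χ x - β (bar χ) x) := by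
    refine ⟨(4 * N) • g - ∑ χ ∈ hfin.toFinset, (g χ) • (β χ - β (bar χ)), fun x => ?_⟩
    rw [AddMonoidHom.sub_apply, AddMonoidHom.smul_apply, AddMonoidHom.finsetSum_apply, smul_eq_mul]
    congr 1
  have hG2 : ∀ x, Wt 𝒜 x → l x = l lam → G x = 4 * N * g x -
      ∑ χ ∈ hfin.toFinset, g χ * (2 * (β χ x - N)) := by
    intro x hx hxl
    rw [hG]
    congr 1
    refine Finset.sum_congr rfl fun χ hχ => ?_
    rw [Set.Finite.mem_toFinset] at hχ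
    obtain ⟨⟨h1, h2⟩, h3⟩ := hbar χ hχ
    have h4 := c.sum2 hχ.1 hχ.2 h1 h2 h3 hx hxl
    congr 1
    linarith
  have hV : ∀ ψ, Vx 𝒜 ψ → l ψ = l lam → G ψ = 2 * N * (g (χ₀ + ψ₀)) := by
    intro ψ hψ hψl
    obtain ⟨⟨h1, h2⟩, h3⟩ := hbar ψ ⟨hψ, hψl⟩
    have h4 := c.symm0 hψ hψl h1 h2 h3
    have h5 : ψ ≠ bar ψ := by
      intro h
      rw [← h, c.two hψ hψl] at h3
      linarith
    rw [hG2 ψ hψ.1 hψl, Finset.sum_eq_add ψ (bar ψ) h5]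
    · rw [c.two hψ hψl, h4, c.const_sum hχ₀ hχl₀ hψ₀ hψl₀ h₀ hψ hψl h1 h2 h3, map_add]
      ring
    · intro χ hχ hχ2
      rw [Set.Finite.mem_toFinset] at hχ
      obtain ⟨⟨h6, h7⟩, h8⟩ := hbar χ hχ
      have h9 : β χ ψ = N := by
        refine c.other hχ.1 hχ.2 h6 h7 h8 hψ.1 hψl (Ne.symm hχ2.1) ?_
        intro h10
        apply hχ2.2
        rw [h10] at h3
        refine c.uniq hψ hψl h1 h2 (hbar ψ ⟨hψ, hψl⟩).2 hχ.1.1 hχ.2 ?_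
        exact c.symm0 hχ.1 hχ.2 hψ hψl (by rw [h10]; exact h8)
      rw [h9]
      ring
    · intro h
      exact absurd (hfin.mem_toFinset.2 ⟨hψ, hψl⟩) h
    · intro h
      exact absurd (hfin.mem_toFinset.2 ⟨h1, h2⟩) h
  -- constant on the face
  obtain ⟨a1, ha1, hal1, h1⟩ := H63X.max_at_vertex c.H l c.hl c.hmax ⟨lam, c.hw, rfl⟩ G
  obtain ⟨a2, ha2, hal2, h2⟩ := H63X.max_at_vertex c.H l c.hl c.hmax ⟨lam, c.hw, rfl⟩ (-G)
  have h3 := h1 ω hω hωl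
  have h4 := h2 ω hω hωl
  rw [AddMonoidHom.neg_apply, AddMonoidHom.neg_apply, hV a2 ha2 hal2] at h4
  rw [hV a1 ha1 hal1] at h3
  have h5 : G ω = 2 * N * (g (χ₀ + ψ₀)) := by linarith
  rw [hG2 ω hω hωl, Finset.sum_eq_zero] at h5
  · have h6 : (2 * N) * g (ω + ω) = (2 * N) * g (χ₀ + ψ₀) := by
      rw [← h5, map_add]
      ring
    exact mul_left_cancel₀ (by linarith) h6
  · intro χ hχ
    rw [Set.Finite.mem_toFinset] at hχ
    obtain ⟨⟨h6, h7⟩, h8⟩ := hbar χ hχ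
    rw [c.other hχ.1 hχ.2 h6 h7 h8 hω hωl (fun h => hnv (by rw [h]; exact hχ.1))
      (fun h => hnv (by rw [h]; exact h6))]
    ring

end FCtx

/-- The structure of the minimal face, for given root data. -/
theorem face_structure (H : H63X.Hyp 𝒜) {N : ℤ} {b : (Fin r → ℤ) → ((Fin r → ℤ) →+ ℤ)}
    {E F : (Fin r → ℤ) → VF R} (hN : 0 < N)
    (hroot : ∀ χ, Vx 𝒜 χ → Root 𝒜 N χ (b χ) (E χ) (F χ)) {lam : Fin r → ℤ} (hw : Wt 𝒜 lam)
    (l : (Fin r → ℤ) →+ ℤ) (hl : 0 < l lam) (hmax : ∀ ω, Wt 𝒜 ω → l ω ≤ l lam)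
    (hRI : ∀ g : (Fin r → ℤ) →+ ℤ, (∀ ω, Wt 𝒜 ω → l ω = l lam → g ω ≤ g lam) →
        ∀ ω, Wt 𝒜 ω → l ω = l lam → g ω = g lam) (hnv : ¬ Vx 𝒜 lam) :
    ∃ (m : ℕ) (e : Fin m → Fin r → ℤ), 1 ≤ m ∧
      (∀ ω, Wt 𝒜 ω → l ω = l lam → ω = lam ∨ ∃ j s, ω = vx lam e j s) ∧
      (∀ j s, Vx 𝒜 (vx lam e j s)) ∧ (∀ j, l (e j) = 0) ∧
      (∀ j s, b (vx lam e j s) lam = N) ∧
      (∀ j s i, b (vx lam e j s) (e i) = if i = j then sg s * N else 0) := by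
  classical
  have hfin : {χ | Vx 𝒜 χ ∧ l χ = l lam}.Finite := (H63X.C07.wt_finite H).subset fun χ hχ => hχ.1.1
  have c : FCtx 𝒜 lam l N b E F := ⟨H, hw, hl, hmax, hRI, hN, fun χ hχ _ => hroot χ hχ, hnv⟩
  have key : ∀ χ, Vx 𝒜 χ → l χ = l lam → (Vx 𝒜 (lam + lam - χ) ∧ l (lam + lam - χ) = l lam) ∧
      b χ (lam + lam - χ) = 0 := by
    intro χ hχ hχl
    obtain ⟨ψ, ⟨h1, h2⟩, h3⟩ := c.exists_bar hχ hχl
    have h4 := c.half hχ hχl h1 h2 h3 hw rfl hnv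
    have h5 : lam + lam - χ = ψ := by rw [h4, add_sub_cancel_left]
    rw [h5]
    exact ⟨⟨h1, h2⟩, h3⟩
  have hF : ∀ ω, Wt 𝒜 ω → l ω = l lam → ¬ Vx 𝒜 ω → ω = lam := by
    intro ω hω hωl h
    obtain ⟨χ, hχ, hχl, -⟩ := H63X.max_at_vertex H l hl hmax ⟨lam, hw, rfl⟩ 0
    obtain ⟨⟨h1, h2⟩, h3⟩ := key χ hχ hχl
    have h4 := c.half hχ hχl h1 h2 h3 hω hωl h
    apply fext
    intro g
    have h5 : g (ω + ω) = g (χ + (lam + lam - χ)) := by rw [h4]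
    rw [map_add, map_add, map_sub, map_add] at h5
    linarith
  -- representatives
  obtain ⟨g, hg⟩ := H587.exists_generic (hfin.union (Set.finite_singleton lam))
  have hg1 : ∀ χ, Vx 𝒜 χ → l χ = l lam → g χ ≠ g lam := by
    intro χ hχ hχl h
    have h1 := hg (Or.inl ⟨hχ, hχl⟩) (Or.inr rfl) h
    exact hnv (by rw [← h1]; exact hχ)
  have hfin2 : {χ | (Vx 𝒜 χ ∧ l χ = l lam) ∧ g lam < g χ}.Finite := hfin.subset fun χ hχ => hχ.1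
  obtain ⟨m, ⟨f⟩⟩ : ∃ m : ℕ, Nonempty
      ({χ : Fin r → ℤ // (Vx 𝒜 χ ∧ l χ = l lam) ∧ g lam < g χ} ≃ Fin m) := by
    let _ : Fintype {χ : Fin r → ℤ // (Vx 𝒜 χ ∧ l χ = l lam) ∧ g lam < g χ} := hfin2.fintype
    exact ⟨_, ⟨Fintype.equivFin _⟩⟩
  have ht : ∀ j, vx lam (fun j => ((f.symm j : Fin r → ℤ) - lam)) j true =
      (f.symm j : Fin r → ℤ) := by
    intro j
    rw [vx, sg_true, one_smul, add_sub_cancel]
  have hf : ∀ j, vx lam (fun j => ((f.symm j : Fin r → ℤ) - lam)) j false =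
      lam + lam - (f.symm j : Fin r → ℤ) := by
    intro j
    rw [vx, sg_false, neg_smul, one_smul]
    abel
  have hv : ∀ j s, Vx 𝒜 (vx lam (fun j => ((f.symm j : Fin r → ℤ) - lam)) j s) ∧
      l (vx lam (fun j => ((f.symm j : Fin r → ℤ) - lam)) j s) = l lam := by
    intro j s
    have h1 := (f.symm j).2.1
    cases s
    · rw [hf]
      exact (key _ h1.1 h1.2).1
    · rw [ht]
      exact h1
  refine ⟨m, fun j => (f.symm j : Fin r → ℤ) - lam, ?_, ?_, fun j s => (hv j s).1,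
    ?_, fun j s => c.val_lam (hv j s).1 (hv j s).2, ?_⟩
  · obtain ⟨χ, hχ, hχl, -⟩ := H63X.max_at_vertex H l hl hmax ⟨lam, hw, rfl⟩ 0
    rcases lt_or_gt_of_ne (hg1 χ hχ hχl) with h1 | h1
    · obtain ⟨h2, -⟩ := key χ hχ hχl
      have h3 : (f ⟨lam + lam - χ, h2, by rw [map_sub, map_add]; linarith⟩ : ℕ) < m := Fin.is_lt _
      omega
    · have h3 : (f ⟨χ, ⟨hχ, hχl⟩, h1⟩ : ℕ) < m := Fin.is_lt _
      omega
  · intro ω hω hωl
    by_cases h : Vx 𝒜 ω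
    · right
      rcases lt_or_gt_of_ne (hg1 ω h hωl) with h1 | h1
      · obtain ⟨h2, -⟩ := key ω h hωl
        refine ⟨f ⟨lam + lam - ω, h2, ?_⟩, false, ?_⟩
        · rw [map_sub, map_add]
          linarith
        · rw [hf, Equiv.symm_apply_apply, sub_sub_cancel]
      · refine ⟨f ⟨ω, ⟨h, hωl⟩, h1⟩, true, ?_⟩
        rw [ht, Equiv.symm_apply_apply]
    · exact Or.inl (hF ω hω hωl h)
  · intro j
    rw [map_sub, (f.symm j).2.1.2, sub_self]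
  · intro j s i
    have hj := (f.symm j).2
    have hi := (f.symm i).2
    obtain ⟨⟨h1, h2⟩, h3⟩ := key _ hj.1.1 hj.1.2
    have h4 := c.symm0 hj.1.1 hj.1.2 h1 h2 h3
    have hne : (f.symm i : Fin r → ℤ) ≠ lam + lam - (f.symm j : Fin r → ℤ) := by
      intro h
      have h5 : g (f.symm i : Fin r → ℤ) = g (lam + lam - (f.symm j : Fin r → ℤ)) := by rw [h]
      rw [map_sub, map_add] at h5
      have h6 := hj.2
      have h7 := hi.2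
      linarith
    cases s
    · beta_reduce
      rw [hf, map_sub, c.val_lam h1 h2]
      by_cases hij : i = j
      · subst hij
        rw [if_pos rfl, h4, sg_false]
        ring
      · rw [if_neg hij, c.other h1 h2 hj.1.1 hj.1.2 h4 hi.1.1.1 hi.1.2 hne (fun h => hij
          (f.symm.injective (Subtype.ext h))), sub_self]
    · beta_reduce
      rw [ht, map_sub, c.val_lam hj.1.1 hj.1.2]
      by_cases hij : i = j
      · subst hij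
        rw [if_pos rfl, c.two hi.1.1 hi.1.2, sg_true]
        ring
      · rw [if_neg hij, c.other hj.1.1 hj.1.2 h1 h2 h3 hi.1.1.1 hi.1.2 (fun h => hij
          (f.symm.injective (Subtype.ext h))) hne, sub_self]


end Vale.Agent.P280.H226
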