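import Vale.Agent.P280.H63X.Chain

/-! P280, T7, helper226: the Cramer step of CRIT_DATA at a point of index two. -/

open DirectSum Vale.Agent.P280.T Vale.Agent.P280.H127

namespace Vale.Agent.P280.H226

open Vale.Agent.P280.N Vale.Agent.P280.H490

variable {r : ℕ} {R : Type} [CommRing R] [IsDomain R] [Algebra ℂ R]
  {𝒜 : ℕ × (Fin r → ℤ) → Submodule ℂ R} [GradedAlgebra 𝒜]

omit [IsDomain R] in
/-- Homogeneous functions detecting the fields which do not vanish at `z`. -/
theorem exists_hom (z : FP 𝒜) {D : Derivation ℂ R R} (h : ∃ h, z.q (D h) ≠ 0) :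
    ∃ (d : ℕ) (m : Fin r → ℤ) (h : R), h ∈ 𝒜 (d, m) ∧ z.q (D h) ≠ 0 := by
  by_contra hcon
  push Not at hcon
  obtain ⟨x, hx⟩ := h
  apply hx
  have h1 : z.q.toLinearMap.comp (D : R →ₗ[ℂ] R) = 0 := by
    refine linearMap_ext_graded 𝒜 ?_
    rintro ⟨d, m⟩ h hh
    exact hcon d m h hh
  exact LinearMap.congr_fun h1 x

/-- **SPLIT.** A function relation between two fields modulo the `E i` splits over two poles. -/
theorem split (_hX : IsTorusManifold 𝒜) (z : FP 𝒜) {ι : Type} [Fintype ι] {w : ι → Fin r → ℤ}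
    (hinj : Function.Injective w) {E : ι → Derivation ℂ R R}
    (hE : ∀ i, H93.IsHField 𝒜 (w i) (E i)) {s s' : R} {N : ℕ} {a : ι → FractionRing R}
    {D D' : VF R} (hD : ∀ h : R, D (iK h) - D' (iK h) = ∑ i, a i * iK (E i h))
    (h0 : ∀ i, (∀ h, z.q (E i h) = 0) → a i = 0)
    (h1 : ∀ h : R, Rg z.q (iK s ^ N * D (iK h))) (h2 : ∀ h : R, Rg z.q (iK s' ^ N * D' (iK h))) :
    ∃ b b' : ι → FractionRing R, (∀ i, a i = b i - b' i) ∧ (∀ i, Rg z.q (iK s ^ N * b i)) ∧
      ∀ i, Rg z.q (iK s' ^ N * b' i) := by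
  classical
  let S : Type := {i : ι // ∃ h, z.q (E i h) ≠ 0}
  have hex : ∀ i : S, ∃ (d : ℕ) (m : Fin r → ℤ) (h : R), h ∈ 𝒜 (d, m) ∧ z.q (E i.1 h) ≠ 0 :=
    fun i => exists_hom z i.2
  choose d m h hh hne using hex
  have hm : ∀ i : S, m i = d i • z.ν + w i.1 := by
    intro i
    have h3 := z.fix _ _ _ (hE i.1 _ _ _ (hh i)) (hne i)
    rw [← h3, sub_add_cancel]
  let M : Matrix S S R := fun i j => E i.1 (h j)
  have hoff : ∀ i j : S, i ≠ j → z.q (M i j) = 0 := by
    intro i j hij
    by_contra hcon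
    have h3 := z.fix _ _ _ (hE i.1 _ _ _ (hh j)) hcon
    rw [hm j] at h3
    apply hij
    apply Subtype.ext
    apply hinj
    have h4 : w j.1 - w i.1 = 0 := by
      have h5 : d j • z.ν + w j.1 - w i.1 = d j • z.ν + (w j.1 - w i.1) := by abel
      rw [h5] at h3
      exact left_eq_add.1 h3.symm
    exact (sub_eq_zero.1 h4).symm
  have hdet : z.q M.det ≠ 0 := by
    have h3 : z.q M.det = (z.q.toRingHom.mapMatrix M).det := RingHom.map_det z.q.toRingHom M
    have h4 : z.q.toRingHom.mapMatrix M = Matrix.diagonal fun i => z.q (E i.1 (h i)) := by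
      ext i j
      rw [Matrix.diagonal_apply]
      by_cases hij : i = j
      · subst hij
        rw [if_pos rfl]
        rfl
      · rw [if_neg hij]
        exact hoff i j hij
    rw [h3, h4, Matrix.det_diagonal]
    exact Finset.prod_ne_zero_iff.2 fun i _ => hne i
  have hdetK : iK M.det ≠ 0 := by
    intro h3
    apply hdet
    have h4 : M.det = 0 := IsFractionRing.injective R (FractionRing R) (by rw [map_zero]; exact h3)
    rw [h4, map_zero]
  have hinvK : Rg z.q (iK M.det)⁻¹ := by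
    refine Rg.of_mul hdet ?_
    rw [mul_inv_cancel₀ hdetK]
    exact Rg.one
  -- the relation on the `h j`
  have hrel : ∀ j : S, D (iK (h j)) - D' (iK (h j)) = ∑ i : S, a i.1 * iK (M i j) := by
    intro j
    rw [hD]
    have h3 : ∑ i, a i * iK (E i (h j)) =
        ∑ i ∈ Finset.univ.filter (fun i => ∃ h, z.q (E i h) ≠ 0), a i * iK (E i (h j)) := by
      rw [Finset.sum_filter]
      refine Finset.sum_congr rfl fun i _ => ?_
      split_ifs with h4
      · rfl
      · push Not at h4
        rw [h0 i h4, zero_mul]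
    rw [h3]
    exact Finset.sum_subtype (p := fun i => ∃ h, z.q (E i h) ≠ 0) _ (by simp)
      (fun i => a i * iK (E i (h j)))
  -- Cramer
  have hadj : ∀ i k : S, ∑ j, iK (M i j) * iK (M.adjugate j k) = if i = k then iK M.det else 0 := by
    intro i k
    have h3 : (M * M.adjugate) i k = (M.det • (1 : Matrix S S R)) i k := by
      rw [Matrix.mul_adjugate]
    rw [Matrix.mul_apply, Matrix.smul_apply, Matrix.one_apply, smul_eq_mul, mul_ite, mul_one,
      mul_zero] at h3
    have h4 := congrArg (algebraMap R (FractionRing R)) h3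
    rw [map_sum] at h4
    simp only [map_mul] at h4
    rw [h4]
    split_ifs
    · rfl
    · exact map_zero _
  let B : VF R → ι → FractionRing R := fun V i =>
    if hi : ∃ h, z.q (E i h) ≠ 0 then
      (iK M.det)⁻¹ * ∑ j : S, V (iK (h j)) * iK (M.adjugate j ⟨i, hi⟩) else 0
  have hBreg : ∀ (V : VF R) (t : FractionRing R), (∀ x : R, Rg z.q (t * V (iK x))) →
      ∀ i, Rg z.q (t * B V i) := by
    intro V t ht i
    by_cases hi : ∃ h, z.q (E i h) ≠ 0
    · have h3 : t * B V i = (iK M.det)⁻¹ *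
          ∑ j : S, (t * V (iK (h j))) * iK (M.adjugate j ⟨i, hi⟩) := by
        simp only [B, dif_pos hi]
        rw [mul_left_comm, Finset.mul_sum]
        refine congrArg _ (Finset.sum_congr rfl fun j _ => ?_)
        ring
      rw [h3]
      exact hinvK.mul (Rg.sum _ fun j _ => (ht _).mul (Rg.iK _))
    · have h3 : t * B V i = 0 := by simp only [B, dif_neg hi, mul_zero]
      rw [h3]
      exact Rg.zero
  refine ⟨B D, B D', fun i => ?_, hBreg D _ h1, hBreg D' _ h2⟩
  by_cases hi : ∃ h, z.q (E i h) ≠ 0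
  · simp only [B, dif_pos hi]
    rw [← mul_sub, ← Finset.sum_sub_distrib]
    have h3 : ∑ j : S, (D (iK (h j)) * iK (M.adjugate j ⟨i, hi⟩) -
        D' (iK (h j)) * iK (M.adjugate j ⟨i, hi⟩)) = a i * iK M.det := by
      have h4 : ∀ j : S, D (iK (h j)) * iK (M.adjugate j ⟨i, hi⟩) -
          D' (iK (h j)) * iK (M.adjugate j ⟨i, hi⟩) =
          ∑ k : S, a k.1 * (iK (M k j) * iK (M.adjugate j ⟨i, hi⟩)) := by
        intro j
        rw [← sub_mul, hrel j, Finset.sum_mul]
        exact Finset.sum_congr rfl fun k _ => mul_assoc _ _ _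
      rw [Finset.sum_congr rfl fun j _ => h4 j, Finset.sum_comm]
      simp only [← Finset.mul_sum, hadj]
      rw [Finset.sum_eq_single ⟨i, hi⟩]
      · rw [if_pos rfl]
      · intro k _ hk
        rw [if_neg hk, mul_zero]
      · intro h5
        exact absurd (Finset.mem_univ _) h5
    rw [h3, mul_comm (a i), inv_mul_cancel_left₀ hdetK]
  · have h3 : a i = 0 := h0 i (by push Not at hi; exact hi)
    simp only [B, dif_neg hi, sub_zero]
    exact h3

end Vale.Agent.P280.H226
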